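import Vale.Agent.P141.H46.LightS
import Vale.Agent.P141.H874.LightR

/-!
# The light pair at a fixed section, killed squares included

`light_fix`: `H874.light_total` with all changes paid by the masses of the killed squares.
-/

set_option linter.unusedSectionVars false

namespace Vale.Agent.P141.H46

open Finset Matrix Vale.Agent.P141.PL Vale.Agent.P141.PL.H103 Vale.Agent.P141.H103
open Vale.Agent.P141.H588G Vale.Agent.P141.H874
open Vale.Agent.P075 (Ix val phi GX)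

noncomputable section

open scoped Classical

variable {κ : Type*} [Fintype κ] [DecidableEq κ]
variable {l : ℝ} {N : ℕ} {G K : ℤ → ℕ → ℤ → Matrix κ κ ℝ}

/-! ### The energy `gs` -/

theorem gs_pt (s : ℝ) (c c' : ℤ → ℤ → κ → ℝ) (k a : ℕ) (n m : ℤ) :
    gs s c' k a n m ≤ gs s c k a n m
      + (((s ^ 2)⁻¹ • phi (XP s c' k a n m)) * (CP c' k a n m - CP c k a n m)).trace := by
  have h := H736.GX_convex (XP_psd s c' k a n m) (XP_psd s c k a n m)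
  have e1 : XP s c' k a n m - XP s c k a n m = (s ^ 2)⁻¹ • (CP c' k a n m - CP c k a n m) := by
    rw [XP, XP, smul_sub]
  rw [e1, Matrix.mul_smul, ← Matrix.smul_mul] at h
  unfold gs
  linarith

theorem EP_gs {k r : ℕ} (hr : k + r ≤ N) {R S : ℤ} (s : ℝ)
    {c c' : ℤ → ℤ → κ → ℝ} {q : ℤ → ℤ → Prop}
    (agc : ∀ n ∈ iv (N - k) R, ∀ m ∈ iv (N - k) S, ¬ q n m → ∀ x ∈ iv k m, ∀ y ∈ iv k n,
      c' x y = c x y) :
    EP N R S k (gs s c' k) (k + r) ≤ EP N R S k (gs s c k) (k + r)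
      + yS N S R k ((s ^ 2)⁻¹) q c' := by
  refine (EG_ch (Y := CP c k) (Y' := CP c' k) (Q₁ := fun a n m => (s ^ 2)⁻¹ • phi (XP s c' k a n m))
    (κ := (s ^ 2)⁻¹) (CP_out N k c) (CP_out N k c')
    (fun a n m => CP_psd c k a n m) (fun a n m => CP_psd c' k a n m)
    (fun a n m => (P075.phi_psd (XP_psd s c' k a n m)).smul (by positivity)) hr
    (fun n _ m _ => by
      rw [← smul_sub]
      exact (P075.one_sub_phi_psd (XP_psd s c' k (k + r) n m)).smul (by positivity))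
    (fun a n m => gs_pt s c c' k a n m) (q := q)
    (fun n hn m hm hq => CP_congr (agc n hn m hm hq))).trans (le_of_eq ?_)
  unfold yS
  rw [Finset.mul_sum]
  congr 1
  refine sum_congr rfl fun m _ => ?_
  rw [Finset.mul_sum]
  refine sum_congr rfl fun n _ => ?_
  rw [← tr_CP4 c' k n m]
  split_ifs <;> ring

theorem WW_gs {k : ℕ} (hk : k ≤ N) {R S : ℤ} (s : ℝ)
    {c c' : ℤ → ℤ → κ → ℝ} {q : ℤ → ℤ → Prop}
    (agc : ∀ n ∈ iv (N - k) R, ∀ m ∈ iv (N - k) S, ¬ q n m → ∀ x ∈ iv k m, ∀ y ∈ iv k n,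
      c' x y = c x y) :
    WW N k (EP N R S k (gs s c' k)) ≤ WW N k (EP N R S k (gs s c k))
      + yS N S R k (4 * (s ^ 2)⁻¹) q c' := by
  refine (WW_one hk (yS_nonneg (C := (s ^ 2)⁻¹) (by positivity)) fun r hr =>
    EP_gs hr s agc).trans (le_of_eq ?_)
  rw [yS_mul]

/-! ### The plane functional -/

/-- the reflected own energies of the killed squares -/
def rS (N : ℕ) (R S T : ℤ) (k : ℕ) (w : ℤ) (s : ℝ) (q : ℤ → ℤ → Prop)
    (c' : ℤ → ℤ → κ → ℝ) : ℝ :=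
  ∑ m ∈ iv (N - k) S, ∑ n ∈ iv (N - k) R, (if q n m then
    (if w - m - n ∈ iv (N - k) T then 4 ^ k * S2 (QP s c' k k (w - m - n) m) else 0) else 0)

theorem MW_pair (h : ∀ x, H420.Tr l N (G x) (K x)) {k : ℕ} {R S T w : ℤ}
    {s M τ : ℝ} (hs : s ≠ 0) (hM : 0 ≤ M) (hτ : 0 < τ)
    {b b' c c' : ℤ → ℤ → κ → ℝ}
    (cap : ∀ n ∈ iv (N - k) R, ∀ m ∈ iv (N - k) S,
      (M • (1 : Matrix (Ix k × κ) (Ix k × κ) ℝ) - LP l K b' k k n m).PosSemidef)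
    {q q' : ℤ → ℤ → Prop}
    (agb : ∀ n ∈ iv (N - k) R, ∀ m ∈ iv (N - k) S, ¬ q n m → ∀ x ∈ iv k m, ∀ y ∈ iv k n,
      b' x y = b x y)
    (agc : ∀ n ∈ iv (N - k) T, ∀ m ∈ iv (N - k) S, ¬ q' n m → ∀ x ∈ iv k m, ∀ y ∈ iv k n,
      c' x y = c x y) :
    MW N R S T k w (LP l K b' k k) (QP s c' k k) ≤ MW N R S T k w (LP l K b k k) (QP s c k k)
      + (yS N S R k (1 / 2 * τ⁻¹ * M) q b' + 1 / 2 * τ * rS N R S T k w s q c'
        + yS N S T k M q' c') := by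
  have h1 := MW_chK (N := N) (k := k) (R := R) (S := S) (T := T) (c := w) (p := LP l K b k k)
    (p' := LP l K b' k k) (u := QP s c k k) (u' := QP s c' k k) (M := M) (τ := τ)
    (fun n m => LP_psd h b k k n m) (fun n m => LP_psd h b' k k n m)
    (fun n m => QP_psd s c k k n m) (fun n m => QP_psd s c' k k n m) hM hτ cap (q := q)
    (q' := q') (fun n hn m hm hq => LP_congr (agb n hn m hm hq))
    (fun n hn m hm hq => QP_congr (agc n hn m hm hq))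
  have e1 : 4 ^ k * (∑ m ∈ iv (N - k) S, ∑ n ∈ iv (N - k) R, (if q n m then
          (1 / 2) * (τ⁻¹ * S2 (LP l K b' k k n m)
            + τ * (if w - m - n ∈ iv (N - k) T then S2 (QP s c' k k (w - m - n) m) else 0)) else 0))
      ≤ yS N S R k (1 / 2 * τ⁻¹ * M) q b' + 1 / 2 * τ * rS N R S T k w s q c' := by
    unfold yS rS
    rw [Finset.mul_sum, Finset.mul_sum, ← sum_add_distrib]
    refine sum_le_sum fun m hm => ?_
    rw [Finset.mul_sum, Finset.mul_sum, ← sum_add_distrib]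
    refine sum_le_sum fun n hn => ?_
    by_cases hq : q n m
    swap
    · rw [if_neg hq, if_neg hq, if_neg hq]
      simp
    rw [if_pos hq, if_pos hq, if_pos hq]
    have c1 := S2_cap (LP_psd h b' k k n m) (cap n hn m hm)
    have c2 := LP_tr_le h b' k k n m
    have c3 := tr_CP4 b' k n m
    have p4 : (0 : ℝ) < 4 ^ k := by positivity
    have c5 : S2 (LP l K b' k k n m) ≤ M * (CP b' k k n m).trace :=
      c1.trans (mul_le_mul_of_nonneg_left c2 hM)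
    have c6 : 4 ^ k * (τ⁻¹ * S2 (LP l K b' k k n m))
        ≤ 4 ^ k * (τ⁻¹ * (M * (CP b' k k n m).trace)) :=
      mul_le_mul_of_nonneg_left (mul_le_mul_of_nonneg_left c5 (inv_nonneg.2 hτ.le)) p4.le
    rw [← c3]
    split_ifs
    · nlinarith [c6]
    · nlinarith [c6]
  have e2 : 4 ^ k * (∑ m ∈ iv (N - k) S, ∑ n ∈ iv (N - k) T, (if q' n m then
          M * (QP s c' k k n m).trace else 0)) ≤ yS N S T k M q' c' := by
    unfold yS
    rw [Finset.mul_sum]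
    refine sum_le_sum fun m hm => ?_
    rw [Finset.mul_sum]
    refine sum_le_sum fun n hn => ?_
    by_cases hq : q' n m
    swap
    · rw [if_neg hq, if_neg hq, mul_zero]
    rw [if_pos hq, if_pos hq]
    have c2 := QP_tr_le hs c' k k n m
    have c3 := tr_CP4 c' k n m
    have p4 : (0 : ℝ) < 4 ^ k := by positivity
    have c6 : 4 ^ k * (M * (QP s c' k k n m).trace)
        ≤ 4 ^ k * (M * (CP c' k k n m).trace) :=
      mul_le_mul_of_nonneg_left (mul_le_mul_of_nonneg_left c2 (by positivity)) p4.le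
    rw [← c3]
    nlinarith [c6]
  linarith

/-! ### The start -/

theorem CP_zero {b : ℤ → ℤ → κ → ℝ} (h : ∀ x y, b x y = 0) (k a : ℕ) (n m : ℤ) :
    CP b k a n m = 0 := by
  ext p q
  simp only [CP, BM, XR, Matrix.smul_apply, Matrix.sum_apply, vecMulVec_apply, h,
    Pi.zero_apply, mul_zero, sum_const_zero, smul_zero, Matrix.zero_apply]

theorem ph_zero {b : ℤ → ℤ → κ → ℝ} (h : ∀ x y, b x y = 0) (k a : ℕ) (n m : ℤ) :
    ph l K b k a n m = 0 := by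
  rw [ph_eq, CP_zero h, Matrix.mul_zero, trace_zero]

theorem gs_zero {c : ℤ → ℤ → κ → ℝ} (h : ∀ x y, c x y = 0) (s : ℝ) (k a : ℕ) (n m : ℤ) :
    gs s c k a n m = 0 := by
  rw [gs, XP, CP_zero h, smul_zero, P075.GX, P075.ld, add_zero, det_one, Real.log_one,
    trace_zero, sub_zero]

theorem EP_zero {N : ℕ} {R S : ℤ} {k a : ℕ} {φ : ℕ → ℤ → ℤ → ℝ} (h : ∀ n m, φ a n m = 0) :
    EP N R S k φ a = 0 := by
  unfold EP
  simp only [h, sum_const_zero, mul_zero]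

/-! ### The total -/

/-- **THE LIGHT PAIR AT A FIXED SECTION.** -/
theorem light_fix (h : ∀ x, H420.Tr l N (G x) (K x)) {R S T : ℤ} {co : ℕ → ℤ}
    (hc : H588.Pl co) {μ s Kop : ℝ} (hμ : 0 < μ) (hs : s ≠ 0) (hK0 : 0 ≤ Kop)
    {b c : ℕ → ℤ → ℤ → κ → ℝ} (b0 : ∀ x y, b 0 x y = 0) (c0 : ∀ x y, c 0 x y = 0)
    (cap1 : ∀ k, k < N → ∀ n m,
      (Kop • (1 : Matrix (Ix (k + 1) × κ) (Ix (k + 1) × κ) ℝ)
        - LP l K (b (k + 1)) (k + 1) (k + 1) n m).PosSemidef)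
    (cap : ∀ k, k < N → ∀ a, k ≤ a → a ≤ N → ∀ n m,
      (Kop • (1 : Matrix (Ix k × κ) (Ix k × κ) ℝ) - LP l K (b (k + 1)) k a n m).PosSemidef)
    {q q' : ℕ → ℤ → ℤ → Prop}
    (agb : ∀ k, k < N → ∀ n ∈ iv (N - k) R, ∀ m ∈ iv (N - k) S, ¬ q k n m →
      ∀ x ∈ iv k m, ∀ y ∈ iv k n, b (k + 1) x y = b k x y)
    (agc : ∀ k, k < N → ∀ n ∈ iv (N - k) T, ∀ m ∈ iv (N - k) S, ¬ q' k n m →
      ∀ x ∈ iv k m, ∀ y ∈ iv k n, c (k + 1) x y = c k x y) :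
    μ / 2 * ∑ k ∈ range N, GW N R S T (k + 1) (co (k + 1))
        (gn l K s (b (k + 1)) (c (k + 1)) (k + 1))
      ≤ 74 * μ ^ 2 * Kop * ∑ k ∈ range N, yS N S R k 1 (q k) (b (k + 1))
        + (144 * s ^ 2 + 3 * μ * Kop) * ∑ k ∈ range N, yS N S T k 1 (q' k) (c (k + 1))
        + 1 / 2 * ∑ k ∈ range N, rS N R S T k (co k) s (q k) (c (k + 1))
        + 3 / 2 * s ^ 2 * ∑ k ∈ range N, GW N R S T (k + 1) (co (k + 1))
            (dcc l K (c (k + 1)) k) := by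
  have hi : 0 < μ⁻¹ := inv_pos.2 hμ
  have H := light_total (Nat.zero_le N) h (R := R) (S := S) (T := T) hc hμ.le hs hK0 (b := b)
    (c := c) (fun k _ hk n m => cap1 k hk n m) (fun k _ hk n m => cap k hk k le_rfl hk.le n m)
    (xM := fun k => yS N S R k (1 / 2 * (μ⁻¹)⁻¹ * Kop) (q k) (b (k + 1))
      + 1 / 2 * μ⁻¹ * rS N R S T k (co k) s (q k) (c (k + 1)) + yS N S T k Kop (q' k) (c (k + 1)))
    (xP := fun k => yS N S R k (8 * Kop) (q k) (b (k + 1)))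
    (xQ := fun k => yS N S T k (4 * (s ^ 2)⁻¹) (q' k) (c (k + 1)))
    (z := fun k => yS N S R k (2 * Kop) (q k) (b (k + 1)))
    (y := fun k => yS N S T k ((s ^ 2)⁻¹) (q' k) (c (k + 1)))
    (fun k _ hk => MW_pair h hs hK0 hi (fun n _ m _ => cap k hk k le_rfl hk.le n m)
      (agb k hk) (agc k hk))
    (fun k _ hk => WW_ph h hk.le hK0 (fun a h1 h2 n _ m _ => cap k hk a h1 h2 n m) (agb k hk))
    (fun k _ hk => WW_gs hk.le s (agc k hk))
    (fun k _ hk => EP_ph (r := 0) h hk.le (fun n _ m _ => cap k hk (k + 0) le_rfl hk.le n m)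
      (agb k hk))
    (fun k _ hk => EP_gs (r := 0) hk.le s (agc k hk))
  rw [EP_zero (fun n m => ph_zero b0 0 0 n m), EP_zero (fun n m => gs_zero c0 s 0 0 n m)] at H
  have Y : ∀ (C : ℝ) (U V : ℤ) (u : ℕ → ℤ → ℤ → Prop) (f : ℕ → ℤ → ℤ → κ → ℝ),
      ∑ k ∈ range N, yS N U V k C (u k) (f (k + 1))
        = C * ∑ k ∈ range N, yS N U V k 1 (u k) (f (k + 1)) := by
    intro C U V u f
    rw [Finset.mul_sum]
    refine sum_congr rfl fun k _ => ?_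
    rw [yS_mul, mul_one]
  rw [← range_eq_Ico] at H
  simp only [sum_add_distrib, ← Finset.mul_sum] at H
  rw [Y (1 / 2 * (μ⁻¹)⁻¹ * Kop) S R q b, Y Kop S T q' c, Y (8 * Kop) S R q b,
    Y (4 * (s ^ 2)⁻¹) S T q' c, Y (2 * Kop) S R q b, Y ((s ^ 2)⁻¹) S T q' c, inv_inv] at H
  have s2 : s ^ 2 ≠ 0 := pow_ne_zero 2 hs
  have p1 : 0 ≤ ∑ k ∈ range N, yS N S R k 1 (q k) (b (k + 1)) :=
    sum_nonneg fun k _ => yS_nonneg zero_le_one
  obtain ⟨A, hA⟩ : ∃ A, A = ∑ k ∈ range N, yS N S R k 1 (q k) (b (k + 1)) := ⟨_, rfl⟩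
  obtain ⟨B, hB⟩ : ∃ B, B = ∑ k ∈ range N, yS N S T k 1 (q' k) (c (k + 1)) := ⟨_, rfl⟩
  obtain ⟨C, hC⟩ : ∃ C, C = ∑ k ∈ range N, rS N R S T k (co k) s (q k) (c (k + 1)) := ⟨_, rfl⟩
  rw [← hA, ← hB, ← hC] at H
  rw [← hA, ← hB, ← hC]
  rw [← hA] at p1
  have e1 : μ * (1 / 2 * μ⁻¹ * C) = 1 / 2 * C := by
    field_simp
  have e2 : 4 * s ^ 4 * (4 * (s ^ 2)⁻¹ * B) = 16 * s ^ 2 * B := by
    field_simp
    ring
  have e3 : 2 * μ * Kop * s ^ 2 * ((s ^ 2)⁻¹ * B) = 2 * μ * Kop * B := by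
    field_simp
  have p2 : 0 ≤ μ ^ 2 * Kop * A := by positivity
  nlinarith [H, e1, e2, e3, p2]

/-- **The light pair at a fixed section, the best weight.** -/
theorem light_fin (h : ∀ x, H420.Tr l N (G x) (K x)) {R S T : ℤ} {co : ℕ → ℤ}
    (hc : H588.Pl co) {s Kop : ℝ} (hs : 0 < s) (hK0 : 0 < Kop)
    {b c : ℕ → ℤ → ℤ → κ → ℝ} (b0 : ∀ x y, b 0 x y = 0) (c0 : ∀ x y, c 0 x y = 0)
    (cap1 : ∀ k, k < N → ∀ n m,
      (Kop • (1 : Matrix (Ix (k + 1) × κ) (Ix (k + 1) × κ) ℝ)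
        - LP l K (b (k + 1)) (k + 1) (k + 1) n m).PosSemidef)
    (cap : ∀ k, k < N → ∀ a, k ≤ a → a ≤ N → ∀ n m,
      (Kop • (1 : Matrix (Ix k × κ) (Ix k × κ) ℝ) - LP l K (b (k + 1)) k a n m).PosSemidef)
    {q q' : ℕ → ℤ → ℤ → Prop}
    (agb : ∀ k, k < N → ∀ n ∈ iv (N - k) R, ∀ m ∈ iv (N - k) S, ¬ q k n m →
      ∀ x ∈ iv k m, ∀ y ∈ iv k n, b (k + 1) x y = b k x y)
    (agc : ∀ k, k < N → ∀ n ∈ iv (N - k) T, ∀ m ∈ iv (N - k) S, ¬ q' k n m →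
      ∀ x ∈ iv k m, ∀ y ∈ iv k n, c (k + 1) x y = c k x y) :
    ∑ k ∈ range N, GW N R S T (k + 1) (co (k + 1))
        (gn l K s (b (k + 1)) (c (k + 1)) (k + 1))
      ≤ s * √Kop * (148 * ∑ k ∈ range N, yS N S R k 1 (q k) (b (k + 1))
        + 288 * ∑ k ∈ range N, yS N S T k 1 (q' k) (c (k + 1))
        + 3 * ∑ k ∈ range N, GW N R S T (k + 1) (co (k + 1)) (dcc l K (c (k + 1)) k))
        + 6 * Kop * ∑ k ∈ range N, yS N S T k 1 (q' k) (c (k + 1))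
        + √Kop / s * ∑ k ∈ range N, rS N R S T k (co k) s (q k) (c (k + 1)) := by
  have hr : 0 < √Kop := Real.sqrt_pos.2 hK0
  have hμ : 0 < s / √Kop := div_pos hs hr
  have H := light_fix h (R := R) (S := S) (T := T) hc hμ hs.ne' hK0.le b0 c0 cap1 cap agb agc
  obtain ⟨W, hW⟩ : ∃ W, W = √Kop := ⟨_, rfl⟩
  have hKW : Kop = W * W := by rw [hW, Real.mul_self_sqrt hK0.le]
  rw [← hW] at H hr hμ
  rw [← hW]
  obtain ⟨A, hA⟩ : ∃ A, A = ∑ k ∈ range N, yS N S R k 1 (q k) (b (k + 1)) := ⟨_, rfl⟩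
  obtain ⟨B, hB⟩ : ∃ B, B = ∑ k ∈ range N, yS N S T k 1 (q' k) (c (k + 1)) := ⟨_, rfl⟩
  obtain ⟨C, hC⟩ : ∃ C, C = ∑ k ∈ range N, rS N R S T k (co k) s (q k) (c (k + 1)) := ⟨_, rfl⟩
  obtain ⟨D, hD⟩ : ∃ D, D = ∑ k ∈ range N, GW N R S T (k + 1) (co (k + 1))
    (dcc l K (c (k + 1)) k) := ⟨_, rfl⟩
  obtain ⟨X, hX⟩ : ∃ X, X = ∑ k ∈ range N, GW N R S T (k + 1) (co (k + 1))
        (gn l K s (b (k + 1)) (c (k + 1)) (k + 1)) := ⟨_, rfl⟩
  rw [← hA, ← hB, ← hC, ← hD, ← hX] at H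
  rw [← hA, ← hB, ← hC, ← hD, ← hX]
  have h2 := mul_le_mul_of_nonneg_left H (show 0 ≤ 2 * W / s by positivity)
  have hs' := hs.ne'
  have hr' := hr.ne'
  have e1 : 2 * W / s * (s / W / 2 * X) = X := by
    field_simp
  have e2 : 2 * W / s * (74 * (s / W) ^ 2 * Kop * A + (144 * s ^ 2 + 3 * (s / W) * Kop) * B
      + 1 / 2 * C + 3 / 2 * s ^ 2 * D)
      = s * W * (148 * A + 288 * B + 3 * D) + 6 * Kop * B + W / s * C := by
    rw [hKW]
    field_simp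
    ring
  rw [e1, e2] at h2
  exact h2

end

end Vale.Agent.P141.H46
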