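import Vale.Agent.P141.H46.LightF
import Vale.Agent.P141.H80.CapP

/-!
# The light pair after the weighted static cut

`cap_hub`: the cap of the light slot passes to the next hub scale.  `light_low`: the light pair at a
fixed section for the low path of the weighted cut and any path of the other slot.
-/

set_option linter.unusedSectionVars false

namespace Vale.Agent.P141.H46

open Finset Matrix Vale.Agent.P141.PL Vale.Agent.P141.PL.H103 Vale.Agent.P141.H103
open Vale.Agent.P141.H588G Vale.Agent.P141.H874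
open Vale.Agent.P075 (Ix val phi GX bd rad)
open Vale.Agent.P141.H736 (Path Agree)
open Vale.Agent.P141.H80 (lowW)

noncomputable section

open scoped Classical

variable {κ : Type*} [Fintype κ] [DecidableEq κ]
variable {l : ℝ} {N : ℕ} {G K : ℤ → ℕ → ℤ → Matrix κ κ ℝ}

theorem bd_psd {m : Type*} [Fintype m] [DecidableEq m] {A D : Matrix m m ℝ}
    (hA : A.PosSemidef) (hD : D.PosSemidef) : (bd A D).PosSemidef := by
  refine .of_dotProduct_mulVec_nonneg ?_ fun w => ?_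
  · rw [bd, IsHermitian, fromBlocks_conjTranspose, hA.isHermitian.eq, hD.isHermitian.eq,
      conjTranspose_zero]
  · have h1 := hA.dotProduct_mulVec_nonneg (w ∘ Sum.inl)
    have h2 := hD.dotProduct_mulVec_nonneg (w ∘ Sum.inr)
    rw [star_trivial] at h1 h2 ⊢
    rw [bd, fromBlocks_mulVec]
    simp only [zero_mulVec, add_zero, zero_add]
    rw [dotProduct, Fintype.sum_sum_type]
    exact add_nonneg h1 h2

/-- **the cap of the light slot passes to the next hub scale** -/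
theorem cap_hub (h : ∀ x, H420.Tr l N (G x) (K x)) (b : ℤ → ℤ → κ → ℝ) {k a : ℕ} {n m : ℤ} {M : ℝ}
    (h0 : (M • (1 : Matrix (Ix k × κ) (Ix k × κ) ℝ) - LP l K b k a n (2 * m)).PosSemidef)
    (h1 : (M • (1 : Matrix (Ix k × κ) (Ix k × κ) ℝ) - LP l K b k a n (2 * m + 1)).PosSemidef) :
    (M • (1 : Matrix (Ix (k + 1) × κ) (Ix (k + 1) × κ) ℝ)
      - LP l K b (k + 1) a n m).PosSemidef := by
  obtain ⟨P, hP⟩ : ∃ P, P = (LP l K b (k + 1) a n m).submatrix (eS k κ) (eS k κ) := ⟨_, rfl⟩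
  have pP : P.PosSemidef := by
    rw [hP]
    exact (LP_psd h b (k + 1) a n m).submatrix _
  have hs : P + rad (Ix k × κ) * P * rad (Ix k × κ)
      = bd (LP l K b k a n (2 * m)) (LP l K b k a n (2 * m + 1)) := by
    rw [hP]
    exact BM_split k m _
  have p1 : (M • (1 : Matrix ((Ix k × κ) ⊕ (Ix k × κ)) ((Ix k × κ) ⊕ (Ix k × κ)) ℝ)
      - P).PosSemidef := by
    have e : M • (1 : Matrix ((Ix k × κ) ⊕ (Ix k × κ)) ((Ix k × κ) ⊕ (Ix k × κ)) ℝ) - P
        = bd (M • (1 : Matrix (Ix k × κ) (Ix k × κ) ℝ) - LP l K b k a n (2 * m))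
            (M • (1 : Matrix (Ix k × κ) (Ix k × κ) ℝ) - LP l K b k a n (2 * m + 1))
          + rad (Ix k × κ) * P * rad (Ix k × κ) := by
      have e1 : P = bd (LP l K b k a n (2 * m)) (LP l K b k a n (2 * m + 1))
          - rad (Ix k × κ) * P * rad (Ix k × κ) := by rw [← hs, add_sub_cancel_right]
      have e2 : bd (M • (1 : Matrix (Ix k × κ) (Ix k × κ) ℝ) - LP l K b k a n (2 * m))
            (M • (1 : Matrix (Ix k × κ) (Ix k × κ) ℝ) - LP l K b k a n (2 * m + 1))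
          = M • (1 : Matrix ((Ix k × κ) ⊕ (Ix k × κ)) ((Ix k × κ) ⊕ (Ix k × κ)) ℝ)
            - bd (LP l K b k a n (2 * m)) (LP l K b k a n (2 * m + 1)) := by
        ext i j
        rcases i with i | i <;> rcases j with j | j <;> simp [bd, Matrix.one_apply]
      rw [e2, ← hs]
      abel
    rw [e]
    exact (bd_psd h0 h1).add (P075.psd_conj_symm pP P075.rad_symm)
  have e : M • (1 : Matrix (Ix (k + 1) × κ) (Ix (k + 1) × κ) ℝ) - LP l K b (k + 1) a n m
      = (M • (1 : Matrix ((Ix k × κ) ⊕ (Ix k × κ)) ((Ix k × κ) ⊕ (Ix k × κ)) ℝ)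
        - P).submatrix (eS k κ).symm (eS k κ).symm := by
    have e1 : M • (1 : Matrix ((Ix k × κ) ⊕ (Ix k × κ)) ((Ix k × κ) ⊕ (Ix k × κ)) ℝ) - P
        = (M • (1 : Matrix (Ix (k + 1) × κ) (Ix (k + 1) × κ) ℝ)
          - LP l K b (k + 1) a n m).submatrix (eS k κ) (eS k κ) := by
      rw [hP, ← submatrix_one_equiv (eS k κ)]
      rfl
    rw [e1, submatrix_submatrix]
    simp
  rw [e]
  exact p1.submatrix _

/-- the caps of the low path -/
theorem cap_low (h : ∀ x, H420.Tr l N (G x) (K x)) {Q : ℕ → ℤ → ℤ → Prop}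
    {F : ℕ → ℤ → ℤ → κ → ℝ} {c : ℝ} (hc : 0 < c) (hQ0 : ∀ n m, Q 0 n m) {k a : ℕ}
    (h1 : k ≤ a) (h2 : a ≤ N) (n m : ℤ) :
    ((√l * c) • (1 : Matrix (Ix k × κ) (Ix k × κ) ℝ)
      - LP l K (lowW Q K c F (k + 1)) k a n m).PosSemidef := by
  obtain ⟨r, rfl⟩ := Nat.exists_eq_add_of_le h1
  exact H80.cap_LP hc h hQ0 h2 n m

theorem cap1_low (h : ∀ x, H420.Tr l N (G x) (K x)) {Q : ℕ → ℤ → ℤ → Prop}
    {F : ℕ → ℤ → ℤ → κ → ℝ} {c : ℝ} (hc : 0 < c) (hQ0 : ∀ n m, Q 0 n m) {k : ℕ} (hk : k < N)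
    (n m : ℤ) :
    ((√l * c) • (1 : Matrix (Ix (k + 1) × κ) (Ix (k + 1) × κ) ℝ)
      - LP l K (lowW Q K c F (k + 1)) (k + 1) (k + 1) n m).PosSemidef :=
  cap_hub h _ (cap_low h hc hQ0 (Nat.le_succ k) hk n (2 * m))
    (cap_low h hc hQ0 (Nat.le_succ k) hk n (2 * m + 1))

/-- agreement off the killed squares from the path form; `Q k m n`, `m` the hub cell -/
theorem ag_path {R S : ℤ} {Q : ℕ → ℤ → ℤ → Prop} {b : ℕ → ℤ → ℤ → κ → ℝ}
    (hb : ∀ a, Path N S R Q (fun k x y => b k x y a)) :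
    ∀ k, k < N → ∀ n ∈ iv (N - k) R, ∀ m ∈ iv (N - k) S, ¬ Q k m n →
      ∀ x ∈ iv k m, ∀ y ∈ iv k n, b (k + 1) x y = b k x y := by
  intro k hk n hn m hm hq x hx y hy
  funext a
  exact hb a k hk m hm n hn hq x hx y hy

/-- **THE LIGHT PAIR AT A FIXED SECTION AFTER THE WEIGHTED CUT.**  `x1` hub (root `S`), `x2` root
`R`, third variable root `T`; `Q k m n`, `m` the hub cell. -/
theorem light_low (h : ∀ x, H420.Tr l N (G x) (K x)) {R S T : ℤ} {co : ℕ → ℤ}
    (hc : H588.Pl co) {s cw : ℝ} (hs : 0 < s) (hcw : 0 < cw)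
    {Q Q' : ℕ → ℤ → ℤ → Prop} {F c : ℕ → ℤ → ℤ → κ → ℝ} (hQ0 : ∀ n m, Q 0 n m)
    (c0 : ∀ x y, c 0 x y = 0) (hcp : ∀ a, Path N S T Q' (fun k x y => c k x y a)) :
    ∑ k ∈ range N, GW N R S T (k + 1) (co (k + 1))
        (gn l K s (lowW Q K cw F (k + 1)) (c (k + 1)) (k + 1))
      ≤ s * √(√l * cw) * (148 * ∑ k ∈ range N, yS N S R k 1 (fun n m => Q k m n)
            (lowW Q K cw F (k + 1))
        + 288 * ∑ k ∈ range N, yS N S T k 1 (fun n m => Q' k m n) (c (k + 1))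
        + 3 * ∑ k ∈ range N, GW N R S T (k + 1) (co (k + 1)) (dcc l K (c (k + 1)) k))
        + 6 * (√l * cw) * ∑ k ∈ range N, yS N S T k 1 (fun n m => Q' k m n) (c (k + 1))
        + √(√l * cw) / s * ∑ k ∈ range N, rS N R S T k (co k) s (fun n m => Q k m n)
            (c (k + 1)) := by
  have hl : 0 < l := (h 0).l_pos
  exact light_fin h (R := R) (S := S) (T := T) (q := fun k n m => Q k m n)
    (q' := fun k n m => Q' k m n) hc hs (mul_pos (Real.sqrt_pos.2 hl) hcw)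
    (fun x y => rfl) c0 (fun k hk n m => cap1_low h hcw hQ0 hk n m)
    (fun k hk a h1 h2 n m => cap_low h hcw hQ0 h1 h2 n m)
    (ag_path fun a => H80.lowW_path N S R a) (ag_path hcp)

end

end Vale.Agent.P141.H46
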