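import Vale.Agent.P141.H46.LightTot
import Vale.Agent.P141.H874.LightP
import Vale.Agent.P141.H736.Chg

/-!
# The light pair: killed squares in the letters of the light pair

`ph_eq`: the potential of the light slot is the trace of the slot against its Gram matrix.
`ph_pt2`, `qs_pt`: the changes of the two potentials.  `hx_pair`: the change of the whole functional
in one step, for the light slot `t • LP` and the saturated slot `QP`, the charges being the masses
of the killed squares.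
-/

set_option linter.unusedSectionVars false

namespace Vale.Agent.P141.H46

open Finset Matrix Vale.Agent.P141.PL Vale.Agent.P141.PL.H103 Vale.Agent.P141.H103
open Vale.Agent.P141.H588G Vale.Agent.P141.H874
open Vale.Agent.P075 (Ix val phi GX)
open Vale.Agent.P141.H999 (fm)

noncomputable section

section gen

variable {ι : Type*} [Fintype ι] [DecidableEq ι]

/-- the quadratic potential `l tr (D X D X)` of a change `X' - X` -/
theorem wsub {D : Matrix ι ι ℝ} (hD : D.PosSemidef) {l : ℝ} (hl : 0 ≤ l)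
    {X X' : Matrix ι ι ℝ} (hX : Xᵀ = X) (hX' : X'ᵀ = X') :
    ((l • (D * X' * D)) * X').trace ≤ ((l • (D * X * D)) * X).trace
      + 2 * ((l • (D * X' * D)) * (X' - X)).trace := by
  have hDt : Dᵀ = D := P075.psd_isSymm hD
  obtain ⟨E, hE⟩ : ∃ E, E = X' - X := ⟨_, rfl⟩
  have hEt : Eᵀ = E := by rw [hE, transpose_sub, hX, hX']
  have h1 := P075.trace_mul_nonneg hD (P075.psd_conj_symm hD hEt)
  have e0 : (D * (E * D * E)).trace = (D * E * D * E).trace := by
    simp only [Matrix.mul_assoc]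
  rw [e0] at h1
  have c1 : (D * X' * D * X).trace = (D * X * D * X').trace := by
    rw [← trace_transpose]
    simp only [transpose_mul, hDt, hX, hX']
    rw [show X * (D * (X' * D)) = (X * D) * (X' * D) by simp only [Matrix.mul_assoc],
      trace_mul_comm (X * D), trace_mul_comm (D * X * D) X']
    simp only [Matrix.mul_assoc]
  have e1 : (D * E * D * E).trace = (D * X' * D * X').trace
      - 2 * (D * X' * D * X).trace + (D * X * D * X).trace := by
    rw [hE]
    simp only [Matrix.mul_sub, Matrix.sub_mul, trace_sub]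
    rw [c1]
    ring
  simp only [Matrix.smul_mul, trace_smul, smul_eq_mul, Matrix.mul_sub, trace_sub]
  rw [e1] at h1
  nlinarith [mul_nonneg hl h1]

/-- `tr A² ≤ M tr A` under the cap -/
theorem S2_cap {A : Matrix ι ι ℝ} (hA : A.PosSemidef) {M : ℝ}
    (h : (M • (1 : Matrix ι ι ℝ) - A).PosSemidef) : S2 A ≤ M * A.trace := by
  have := P075.trace_mul_le_left hA h
  rwa [smul_mul_assoc, Matrix.one_mul, trace_smul, smul_eq_mul] at this

end gen

variable {κ : Type*} [Fintype κ] [DecidableEq κ]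
variable {l : ℝ} {N : ℕ} {G K : ℤ → ℕ → ℤ → Matrix κ κ ℝ}

/-- **The potential of the light slot.** -/
theorem ph_eq (b : ℤ → ℤ → κ → ℝ) (k a : ℕ) (n m : ℤ) :
    ph l K b k a n m = (LP l K b k a n m * CP b k a n m).trace := by
  unfold LP CP
  rw [BM_trace]
  unfold ph wf
  congr 1
  refine sum_congr rfl fun x _ => sum_congr rfl fun x' _ => ?_
  rw [LM, Matrix.smul_mul, trace_smul, smul_eq_mul, fm, ← XR_swap a b x' x n,
    trace_mul_comm (XR a b b x x' n)ᵀ]

theorem invb_psd (h : ∀ x, H420.Tr l N (G x) (K x)) (k a : ℕ) (n m : ℤ) :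
    (DB k m fun x => (K x a n)⁻¹).PosSemidef :=
  DB_psd fun x => ((h x).pdK a n).inv.posSemidef

/-- the change of the potential of the light slot -/
theorem ph_pt2 (h : ∀ x, H420.Tr l N (G x) (K x)) (b b' : ℤ → ℤ → κ → ℝ) (k a : ℕ) (n m : ℤ) :
    ph l K b' k a n m ≤ ph l K b k a n m
      + 2 * (LP l K b' k a n m * (CP b' k a n m - CP b k a n m)).trace := by
  rw [ph_eq, ph_eq, LP_eq, LP_eq]
  exact wsub (invb_psd h k a n m) (h 0).l_pos.le (CP_symm b k a n m) (CP_symm b' k a n m)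

/-- the same for a multiple -/
theorem ph_pt2t (h : ∀ x, H420.Tr l N (G x) (K x)) (t : ℝ) (b b' : ℤ → ℤ → κ → ℝ) (k a : ℕ)
    (n m : ℤ) :
    t ^ 2 * ph l K b' k a n m ≤ t ^ 2 * ph l K b k a n m
      + 2 * ((t • LP l K b' k a n m) * (t • CP b' k a n m - t • CP b k a n m)).trace := by
  have h1 := mul_le_mul_of_nonneg_left (ph_pt2 h b b' k a n m) (sq_nonneg t)
  rw [← smul_sub, smul_mul_smul_comm, trace_smul, smul_eq_mul]
  nlinarith [h1]

/-- **The change of the energy of the saturated slot.** -/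
theorem qs_pt {s : ℝ} (hs : s ≠ 0) (c c' : ℤ → ℤ → κ → ℝ) (k a : ℕ) (n m : ℤ) :
    qs s c' k a n m ≤ qs s c k a n m
      + (((4 : ℝ) • QP s c' k a n m) * (CP c' k a n m - CP c k a n m)).trace := by
  have h := H736.GX_convex (XP_psd s c' k a n m) (XP_psd s c k a n m)
  unfold qs gs QP
  have e : (((4 : ℝ) • s ^ 2 • phi (XP s c' k a n m)) * (CP c' k a n m - CP c k a n m)).trace
      = 4 * s ^ 4 * (phi (XP s c' k a n m) * (XP s c' k a n m - XP s c k a n m)).trace := by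
    have e1 : XP s c' k a n m - XP s c k a n m = (s ^ 2)⁻¹ • (CP c' k a n m - CP c k a n m) := by
      rw [XP, XP, smul_sub]
    rw [e1, Matrix.mul_smul, trace_smul, smul_smul, Matrix.smul_mul, trace_smul, smul_eq_mul,
      smul_eq_mul]
    field_simp
  rw [e]
  have h4 : (0 : ℝ) ≤ 4 * s ^ 4 := by positivity
  nlinarith [mul_le_mul_of_nonneg_left h h4]

theorem QP4_cap (s : ℝ) (c : ℤ → ℤ → κ → ℝ) (k a : ℕ) (n m : ℤ) :
    ((4 * s ^ 2) • (1 : Matrix (Ix k × κ) (Ix k × κ) ℝ) - (4 : ℝ) • QP s c k a n m).PosSemidef := by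
  have := (QP_cap s c k a n m).smul (a := (4 : ℝ)) (by norm_num)
  rwa [smul_sub, smul_smul] at this

/-! ### Agreements -/

theorem val_mem (k : ℕ) (m : ℤ) (i : Ix k) : 2 ^ k * m + (val k i : ℤ) ∈ iv k m := by
  by_contra hx
  have h1 : ∑ x ∈ iv k m, (if x = 2 ^ k * m + (val k i : ℤ) then (1 : ℝ) else 0) = 0 :=
    sum_eq_zero fun x hx' => if_neg (by rintro rfl; exact hx hx')
  rw [H588.sum_iv] at h1
  have h2 := (sum_eq_zero_iff_of_nonneg fun j _ => by split_ifs <;> norm_num).1 h1 i (mem_univ _)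
  rw [if_pos rfl] at h2
  exact one_ne_zero h2

theorem BM_congr {k : ℕ} {m : ℤ} {F F' : ℤ → ℤ → Matrix κ κ ℝ}
    (h : ∀ x ∈ iv k m, ∀ x' ∈ iv k m, F x x' = F' x x') : BM k m F = BM k m F' := by
  ext p q
  unfold BM
  rw [h _ (val_mem k m p.1) _ (val_mem k m q.1)]

theorem XR_congr {a : ℕ} {b b' : ℤ → ℤ → κ → ℝ} {n x x' : ℤ}
    (h : ∀ y ∈ iv a n, b' x y = b x y) (h' : ∀ y ∈ iv a n, b' x' y = b x' y) :
    XR a b' b' x x' n = XR a b b x x' n := by
  unfold XR
  congr 1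
  exact sum_congr rfl fun y hy => by rw [h y hy, h' y hy]

theorem CP_congr {b b' : ℤ → ℤ → κ → ℝ} {k a : ℕ} {n m : ℤ}
    (h : ∀ x ∈ iv k m, ∀ y ∈ iv a n, b' x y = b x y) : CP b' k a n m = CP b k a n m := by
  unfold CP
  exact BM_congr fun x hx x' hx' => XR_congr (h x hx) (h x' hx')

theorem LP_congr {b b' : ℤ → ℤ → κ → ℝ} {k a : ℕ} {n m : ℤ}
    (h : ∀ x ∈ iv k m, ∀ y ∈ iv a n, b' x y = b x y) : LP l K b' k a n m = LP l K b k a n m := by
  rw [LP_eq, LP_eq, CP_congr h]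

theorem QP_congr {s : ℝ} {c c' : ℤ → ℤ → κ → ℝ} {k a : ℕ} {n m : ℤ}
    (h : ∀ x ∈ iv k m, ∀ y ∈ iv a n, c' x y = c x y) : QP s c' k a n m = QP s c k a n m := by
  unfold QP XP
  rw [CP_congr h]

/-! ### Traces -/

/-- the mass of a rectangle -/
def ms (b : ℤ → ℤ → κ → ℝ) (k a : ℕ) (n m : ℤ) : ℝ :=
  ∑ x ∈ iv k m, ∑ y ∈ iv a n, b x y ⬝ᵥ b x y

theorem ms_nonneg (b : ℤ → ℤ → κ → ℝ) (k a : ℕ) (n m : ℤ) : 0 ≤ ms b k a n m :=
  sum_nonneg fun x _ => sum_nonneg fun y _ => by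
    rw [dotProduct]
    exact sum_nonneg fun i _ => mul_self_nonneg _

/-- the trace of the Gram matrix is the mass -/
theorem tr_CP (b : ℤ → ℤ → κ → ℝ) (k a : ℕ) (n m : ℤ) :
    (2 : ℝ) ^ k * 2 ^ a * (CP b k a n m).trace = ms b k a n m := by
  have e : (CP b k a n m).trace = ((2 : ℝ) ^ k)⁻¹ * ((2 : ℝ) ^ a)⁻¹ * ms b k a n m := by
    unfold ms
    rw [H588.sum_iv, Finset.mul_sum, Matrix.trace, Fintype.sum_prod_type]
    refine sum_congr rfl fun i _ => ?_
    simp only [Matrix.diag, CP, BM, XR, Matrix.smul_apply, Matrix.sum_apply, vecMulVec_apply,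
      smul_eq_mul, dotProduct]
    rw [Finset.sum_comm, ← Finset.mul_sum, ← Finset.mul_sum, mul_assoc]
  rw [e]
  field_simp

theorem tr_CP4 (b : ℤ → ℤ → κ → ℝ) (k : ℕ) (n m : ℤ) :
    (4 : ℝ) ^ k * (CP b k k n m).trace = ms b k k n m := by
  rw [← tr_CP, ← mul_pow]
  norm_num

/-- `tr LP ≤ tr CP` -/
theorem LP_tr_le (h : ∀ x, H420.Tr l N (G x) (K x)) (b : ℤ → ℤ → κ → ℝ) (k a : ℕ) (n m : ℤ) :
    (LP l K b k a n m).trace ≤ (CP b k a n m).trace := by
  have hl : 0 < l := (h 0).l_pos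
  obtain ⟨D, hD⟩ : ∃ D, D = DB k m fun x => (K x a n)⁻¹ := ⟨_, rfl⟩
  have p1 : (1 - l • (D * D)).PosSemidef := by
    have e : (1 : Matrix (Ix k × κ) (Ix k × κ) ℝ) - l • (D * D)
        = DB k m fun x => 1 - l • ((K x a n)⁻¹ * (K x a n)⁻¹) := by
      refine bk_ext fun i j => ?_
      have e1 : bk (1 - l • (D * D)) i j = bk (1 : Matrix (Ix k × κ) (Ix k × κ) ℝ) i j
          - l • bk (D * D) i j := rfl
      have e2 : bk (1 : Matrix (Ix k × κ) (Ix k × κ) ℝ) i j = if i = j then 1 else 0 := by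
        ext u v
        simp only [bk, Matrix.one_apply, Prod.mk.injEq]
        by_cases hij : i = j <;> by_cases huv : u = v <;> simp [hij, huv, Matrix.one_apply]
      rw [e1, e2, bk_mul, bk_DB, hD]
      simp only [bk_DB, ite_mul, zero_mul, mul_ite, mul_zero, Finset.sum_ite_eq',
        Finset.mem_univ, if_true]
      by_cases hij : i = j
      · subst hij
        simp only [if_true]
      · simp only [if_neg hij, smul_zero, sub_zero]
    rw [e]
    refine DB_psd fun x => ?_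
    have pK := (h x).pdK a n
    have hu : IsUnit (K x a n).det := (isUnit_iff_isUnit_det _).mp pK.isUnit
    have hKt : ((K x a n)⁻¹)ᵀ = (K x a n)⁻¹ := herm_tr pK.isHermitian.inv
    have e3 : (1 : Matrix κ κ ℝ) - l • ((K x a n)⁻¹ * (K x a n)⁻¹)
        = (K x a n)⁻¹ * G x a n * (K x a n)⁻¹ := by
      have e4 : G x a n = K x a n * K x a n - l • 1 := by
        rw [(h x).sq]; abel
      rw [e4, Matrix.mul_sub, Matrix.sub_mul, ← Matrix.mul_assoc, nonsing_inv_mul _ hu,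
        Matrix.one_mul, mul_nonsing_inv _ hu, Matrix.mul_smul, Matrix.mul_one, Matrix.smul_mul]
    rw [e3]
    exact P075.psd_conj_symm ((h x).psG a n) hKt
  have h1 := P075.trace_mul_nonneg (CP_psd b k a n m) p1
  rw [Matrix.mul_sub, Matrix.mul_one, trace_sub, Matrix.mul_smul, trace_smul, smul_eq_mul] at h1
  rw [LP_eq, trace_smul, smul_eq_mul, ← hD, Matrix.mul_assoc, trace_mul_comm D, Matrix.mul_assoc]
  linarith

theorem QP_tr_le {s : ℝ} (hs : s ≠ 0) (c : ℤ → ℤ → κ → ℝ) (k a : ℕ) (n m : ℤ) :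
    (QP s c k a n m).trace ≤ (CP c k a n m).trace := by
  have := (QP_le hs c k a n m).trace_nonneg
  rw [trace_sub] at this
  linarith

end

section step

open scoped Classical

noncomputable section

variable {κ : Type*} [Fintype κ] [DecidableEq κ]
variable {l : ℝ} {N : ℕ} {G K : ℤ → ℕ → ℤ → Matrix κ κ ℝ}

/-- the charges of the killed squares of the light slot -/
def xS (N : ℕ) (R S T : ℤ) (k : ℕ) (w : ℤ) (C τ s : ℝ) (q : ℤ → ℤ → Prop)
    (b' c' : ℤ → ℤ → κ → ℝ) : ℝ :=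
  ∑ m ∈ iv (N - k) S, ∑ n ∈ iv (N - k) R, (if q n m then
    C * ms b' k k n m + (1 / 2) * τ * (if w - m - n ∈ iv (N - k) T then
      4 ^ k * S2 (QP s c' k k (w - m - n) m) else 0) else 0)

/-- the charges of the killed squares of the saturated slot -/
def yS (N : ℕ) (S T : ℤ) (k : ℕ) (C : ℝ) (q' : ℤ → ℤ → Prop) (c' : ℤ → ℤ → κ → ℝ) : ℝ :=
  ∑ m ∈ iv (N - k) S, ∑ n ∈ iv (N - k) T, (if q' n m then C * ms c' k k n m else 0)

/-- the energies of the light slot, one scale -/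
theorem EP_ph (h : ∀ x, H420.Tr l N (G x) (K x)) {k r : ℕ} (hr : k + r ≤ N) {R S : ℤ} {M : ℝ}
    {b b' : ℤ → ℤ → κ → ℝ}
    (cap : ∀ n ∈ iv (N - (k + r)) R, ∀ m ∈ iv (N - k) S,
      (M • (1 : Matrix (Ix k × κ) (Ix k × κ) ℝ) - LP l K b' k (k + r) n m).PosSemidef)
    {q : ℤ → ℤ → Prop}
    (agb : ∀ n ∈ iv (N - k) R, ∀ m ∈ iv (N - k) S, ¬ q n m → ∀ x ∈ iv k m, ∀ y ∈ iv k n,
      b' x y = b x y) :
    EP N R S k (ph l K b' k) (k + r) ≤ EP N R S k (ph l K b k) (k + r)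
      + yS N S R k (2 * M) q b' := by
  refine (EP_chK (X := CP b k) (X' := CP b' k) (P' := LP l K b' k) (CP_out N k b) (CP_out N k b')
    (fun a n m => CP_psd b k a n m) (fun a n m => CP_psd b' k a n m)
    (fun a n m => LP_psd h b' k a n m) hr cap (fun a n m => ph_pt2 h b b' k a n m) (q := q)
    (fun n hn m hm hq => CP_congr (agb n hn m hm hq))).trans (le_of_eq ?_)
  unfold yS
  rw [Finset.mul_sum]
  congr 1
  refine sum_congr rfl fun m _ => ?_
  rw [Finset.mul_sum]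
  refine sum_congr rfl fun n _ => ?_
  rw [← tr_CP4 b' k n m]
  split_ifs <;> ring

/-- the energies of the saturated slot, one scale -/
theorem EP_qs {k r : ℕ} (hr : k + r ≤ N) {R S : ℤ} {s : ℝ} (hs : s ≠ 0)
    {c c' : ℤ → ℤ → κ → ℝ} {q : ℤ → ℤ → Prop}
    (agc : ∀ n ∈ iv (N - k) R, ∀ m ∈ iv (N - k) S, ¬ q n m → ∀ x ∈ iv k m, ∀ y ∈ iv k n,
      c' x y = c x y) :
    EP N R S k (qs s c' k) (k + r) ≤ EP N R S k (qs s c k) (k + r)
      + yS N S R k (4 * s ^ 2) q c' := by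
  refine (EG_ch (Y := CP c k) (Y' := CP c' k) (Q₁ := fun a n m => (4 : ℝ) • QP s c' k a n m)
    (κ := 4 * s ^ 2) (CP_out N k c) (CP_out N k c')
    (fun a n m => CP_psd c k a n m) (fun a n m => CP_psd c' k a n m)
    (fun a n m => (QP_psd s c' k a n m).smul (by norm_num)) hr
    (fun n _ m _ => QP4_cap s c' k (k + r) n m) (fun a n m => qs_pt hs c c' k a n m) (q := q)
    (fun n hn m hm hq => CP_congr (agc n hn m hm hq))).trans (le_of_eq ?_)
  unfold yS
  rw [Finset.mul_sum]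
  congr 1
  refine sum_congr rfl fun m _ => ?_
  rw [Finset.mul_sum]
  refine sum_congr rfl fun n _ => ?_
  rw [← tr_CP4 c' k n m]
  split_ifs <;> ring

theorem yS_nonneg {N : ℕ} {S T : ℤ} {k : ℕ} {C : ℝ} (hC : 0 ≤ C) {q' : ℤ → ℤ → Prop}
    {c' : ℤ → ℤ → κ → ℝ} : 0 ≤ yS N S T k C q' c' :=
  sum_nonneg fun m _ => sum_nonneg fun n _ => by
    split_ifs
    · exact mul_nonneg hC (ms_nonneg _ _ _ _ _)
    · exact le_rfl

theorem yS_mul {N : ℕ} {S T : ℤ} {k : ℕ} (μ C : ℝ) {q' : ℤ → ℤ → Prop}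
    {c' : ℤ → ℤ → κ → ℝ} : μ * yS N S T k C q' c' = yS N S T k (μ * C) q' c' := by
  unfold yS
  rw [Finset.mul_sum]
  refine sum_congr rfl fun m _ => ?_
  rw [Finset.mul_sum]
  refine sum_congr rfl fun n _ => ?_
  split_ifs <;> ring

/-- weighted energies from the energies of one scale -/
theorem WW_one {N k : ℕ} (hk : k ≤ N) {E E' : ℕ → ℝ} {x : ℝ} (hx : 0 ≤ x)
    (h : ∀ r, k + r ≤ N → E' (k + r) ≤ E (k + r) + x) : WW N k E' ≤ WW N k E + 4 * x := by
  have h1 : WW N k E' ≤ WW N k E + ∑ r ∈ range (N - k + 1), (3 / 4 : ℝ) ^ r * x := by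
    unfold WW
    rw [← sum_add_distrib]
    refine sum_le_sum fun r hr => ?_
    rw [mem_range] at hr
    rw [← mul_add]
    exact mul_le_mul_of_nonneg_left (h r (by omega)) (by positivity)
  exact h1.trans (add_le_add_right (geo_tr hx) _)

theorem WW_ph (h : ∀ x, H420.Tr l N (G x) (K x)) {k : ℕ} (hk : k ≤ N) {R S : ℤ} {M : ℝ}
    (hM : 0 ≤ M) {b b' : ℤ → ℤ → κ → ℝ}
    (cap : ∀ a, k ≤ a → a ≤ N → ∀ n ∈ iv (N - a) R, ∀ m ∈ iv (N - k) S,
      (M • (1 : Matrix (Ix k × κ) (Ix k × κ) ℝ) - LP l K b' k a n m).PosSemidef)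
    {q : ℤ → ℤ → Prop}
    (agb : ∀ n ∈ iv (N - k) R, ∀ m ∈ iv (N - k) S, ¬ q n m → ∀ x ∈ iv k m, ∀ y ∈ iv k n,
      b' x y = b x y) :
    WW N k (EP N R S k (ph l K b' k)) ≤ WW N k (EP N R S k (ph l K b k))
      + yS N S R k (8 * M) q b' := by
  refine (WW_one hk (yS_nonneg (C := 2 * M) (by positivity)) fun r hr =>
    EP_ph h hr (cap (k + r) (Nat.le_add_right _ _) hr) agb).trans (le_of_eq ?_)
  rw [yS_mul, ← mul_assoc]
  norm_num

theorem WW_qs {k : ℕ} (hk : k ≤ N) {R S : ℤ} {s : ℝ} (hs : s ≠ 0)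
    {c c' : ℤ → ℤ → κ → ℝ} {q : ℤ → ℤ → Prop}
    (agc : ∀ n ∈ iv (N - k) R, ∀ m ∈ iv (N - k) S, ¬ q n m → ∀ x ∈ iv k m, ∀ y ∈ iv k n,
      c' x y = c x y) :
    WW N k (EP N R S k (qs s c' k)) ≤ WW N k (EP N R S k (qs s c k))
      + yS N S R k (16 * s ^ 2) q c' := by
  refine (WW_one hk (yS_nonneg (C := 4 * s ^ 2) (by positivity)) fun r hr =>
    EP_qs hr hs agc).trans (le_of_eq ?_)
  rw [yS_mul, ← mul_assoc]
  norm_num

/-- **The change of the whole functional in one step, light pair.** -/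
theorem hx_pair (h : ∀ x, H420.Tr l N (G x) (K x)) {k : ℕ} (hk : k ≤ N) {R S T w : ℤ}
    {t s M τ : ℝ} (ht : 0 ≤ t) (hs : s ≠ 0) (hM : 0 ≤ M) (hτ : 0 < τ)
    {b b' c c' : ℤ → ℤ → κ → ℝ}
    (cap : ∀ a, k ≤ a → a ≤ N → ∀ n ∈ iv (N - a) R, ∀ m ∈ iv (N - k) S,
      (M • (1 : Matrix (Ix k × κ) (Ix k × κ) ℝ) - LP l K b' k a n m).PosSemidef)
    {q q' : ℤ → ℤ → Prop}
    (agb : ∀ n ∈ iv (N - k) R, ∀ m ∈ iv (N - k) S, ¬ q n m → ∀ x ∈ iv k m, ∀ y ∈ iv k n,
      b' x y = b x y)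
    (agc : ∀ n ∈ iv (N - k) T, ∀ m ∈ iv (N - k) S, ¬ q' n m → ∀ x ∈ iv k m, ∀ y ∈ iv k n,
      c' x y = c x y) :
    MW N R S T k w (fun n m => t • LP l K b' k k n m) (QP s c' k k)
      + 9 * (WW N k (EP N R S k fun a n m => t ^ 2 * ph l K b' k a n m)
        + WW N k (EP N T S k (qs s c' k))) ≤
    MW N R S T k w (fun n m => t • LP l K b k k n m) (QP s c k k)
      + 9 * (WW N k (EP N R S k fun a n m => t ^ 2 * ph l K b k a n m)
        + WW N k (EP N T S k (qs s c k))) +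
      (xS N R S T k w (t ^ 2 * M * (1 / 2 * τ⁻¹ + 72)) τ s q b' c'
        + yS N S T k (t * M + 144 * s ^ 2) q' c') := by
  have h1 := hx_light (N := N) (k := k) hk (R := R) (S := S) (T := T) (c := w)
    (P := fun a n m => t • LP l K b k a n m) (P' := fun a n m => t • LP l K b' k a n m)
    (X := fun a n m => t • CP b k a n m) (X' := fun a n m => t • CP b' k a n m)
    (Q := QP s c k) (Q' := QP s c' k) (Y := CP c k) (Y' := CP c' k)
    (Q₁ := fun a n m => (4 : ℝ) • QP s c' k a n m)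
    (φ := fun a n m => t ^ 2 * ph l K b k a n m) (φ' := fun a n m => t ^ 2 * ph l K b' k a n m)
    (ψ := qs s c k) (ψ' := qs s c' k) (M := t * M) (κ := 4 * s ^ 2) (τ := τ) (by positivity)
    (by positivity) hτ (fun a n m => (LP_psd h b k a n m).smul ht)
    (fun a n m => (LP_psd h b' k a n m).smul ht) (fun a n m => QP_psd s c k a n m)
    (fun a n m => QP_psd s c' k a n m)
    (fun a h1 h2 n m => by
      have := CP_out N k b a h1 h2 n m
      simp only [this, smul_add, smul_comm t])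
    (fun a h1 h2 n m => by
      have := CP_out N k b' a h1 h2 n m
      simp only [this, smul_add, smul_comm t])
    (fun a n m => (CP_psd b k a n m).smul ht) (fun a n m => (CP_psd b' k a n m).smul ht)
    (CP_out N k c) (CP_out N k c') (fun a n m => CP_psd c k a n m)
    (fun a n m => CP_psd c' k a n m) (fun a n m => (QP_psd s c' k a n m).smul (by norm_num))
    (fun a h1 h2 n hn m hm => by
      have := (cap a h1 h2 n hn m hm).smul ht
      rwa [smul_sub, smul_smul] at this)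
    (fun a n m => ph_pt2t h t b b' k a n m)
    (fun a _ _ n _ m _ => QP4_cap s c' k a n m) (fun a n m => qs_pt hs c c' k a n m)
    (q := q) (q' := q')
    (fun n hn m hm hq => by rw [CP_congr (agb n hn m hm hq)])
    (fun n hn m hm hq => by rw [LP_congr (agb n hn m hm hq)])
    (fun n hn m hm hq => CP_congr (agc n hn m hm hq))
    (fun n hn m hm hq => QP_congr (agc n hn m hm hq))
  refine h1.trans (add_le_add_right (add_le_add ?_ ?_) _)
  · unfold xq xS
    rw [Finset.mul_sum]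
    refine sum_le_sum fun m hm => ?_
    rw [Finset.mul_sum]
    refine sum_le_sum fun n hn => ?_
    by_cases hq : q n m
    swap
    · rw [if_neg hq, if_neg hq, mul_zero]
    rw [if_pos hq, if_pos hq]
    have c1 := S2_cap (LP_psd h b' k k n m) (cap k le_rfl hk n hn m hm)
    have c2 := LP_tr_le h b' k k n m
    have c3 := tr_CP4 b' k n m
    have c4 : S2 (t • LP l K b' k k n m) = t ^ 2 * S2 (LP l K b' k k n m) := by
      unfold S2
      rw [smul_mul_smul_comm, trace_smul, smul_eq_mul, sq]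
    have p4 : (0 : ℝ) < 4 ^ k := by positivity
    have c5 : S2 (LP l K b' k k n m) ≤ M * (CP b' k k n m).trace :=
      c1.trans (mul_le_mul_of_nonneg_left c2 hM)
    have c6 : 4 ^ k * (τ⁻¹ * (t ^ 2 * S2 (LP l K b' k k n m)))
        ≤ 4 ^ k * (τ⁻¹ * (t ^ 2 * (M * (CP b' k k n m).trace))) := by
      refine mul_le_mul_of_nonneg_left (mul_le_mul_of_nonneg_left
        (mul_le_mul_of_nonneg_left c5 (sq_nonneg t)) (inv_nonneg.2 hτ.le)) p4.le
    rw [← c3]
    rw [c4, trace_smul, smul_eq_mul]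
    split_ifs
    · nlinarith [c6]
    · nlinarith [c6]
  · unfold yq yS
    rw [Finset.mul_sum]
    refine sum_le_sum fun m hm => ?_
    rw [Finset.mul_sum]
    refine sum_le_sum fun n hn => ?_
    by_cases hq : q' n m
    swap
    · rw [if_neg hq, if_neg hq, mul_zero]
    rw [if_pos hq, if_pos hq]
    have c2 := QP_tr_le hs c' k k n m
    have c3 := tr_CP4 c' k n m
    have p4 : (0 : ℝ) < 4 ^ k := by positivity
    have c6 : 4 ^ k * (t * M * (QP s c' k k n m).trace)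
        ≤ 4 ^ k * (t * M * (CP c' k k n m).trace) :=
      mul_le_mul_of_nonneg_left (mul_le_mul_of_nonneg_left c2 (by positivity)) p4.le
    rw [← c3]
    nlinarith [c6]

end

end step

end Vale.Agent.P141.H46
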