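import Vale.Agent.P141.H46.PotCh

/-!
# The plane functional with potentials under killed squares: the total

`hx_light`: the change of the whole functional in one step.  `lightTot`: the sum over all scales of
the gains for a moving family with a cap `M` (potential `φ`) against a family with a potential `ψ`
of bounded gradient.
-/

namespace Vale.Agent.P141.H46

open Finset Matrix Vale.Agent.P141.PL Vale.Agent.P141.PL.H103 Vale.Agent.P141.H103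
open Vale.Agent.P141.H588G

noncomputable section

open scoped Classical

variable {ι : Type*} [Fintype ι] [DecidableEq ι]

/-- the numbers of the killed squares of the first family -/
def xq (N : ℕ) (R S T : ℤ) (k : ℕ) (c : ℤ) (M τ : ℝ) (q : ℤ → ℤ → Prop)
    (p' x' u' : ℤ → ℤ → Matrix ι ι ℝ) : ℝ :=
  4 ^ k * ∑ m ∈ iv (N - k) S, ∑ n ∈ iv (N - k) R, (if q n m then
    (1 / 2) * (τ⁻¹ * S2 (p' n m)
      + τ * (if c - m - n ∈ iv (N - k) T then S2 (u' (c - m - n) m) else 0))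
      + 72 * M * (x' n m).trace else 0)

/-- the numbers of the killed squares of the second family -/
def yq (N : ℕ) (S T : ℤ) (k : ℕ) (M κ : ℝ) (q' : ℤ → ℤ → Prop)
    (u' y' : ℤ → ℤ → Matrix ι ι ℝ) : ℝ :=
  4 ^ k * ∑ m ∈ iv (N - k) S, ∑ n ∈ iv (N - k) T, (if q' n m then
    M * (u' n m).trace + 36 * κ * (y' n m).trace else 0)

theorem geo_tr {N k : ℕ} {x : ℝ} (hx : 0 ≤ x) :
    ∑ r ∈ range (N - k + 1), (3 / 4 : ℝ) ^ r * x ≤ 4 * x := by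
  rw [← sum_mul]
  exact mul_le_mul_of_nonneg_right (geo4 _) hx

omit [DecidableEq ι] in
/-- weighted energies, charge `κ tr` -/
theorem WW_tr {N k : ℕ} (hk : k ≤ N) {R S : ℤ} {φ φ' : ℕ → ℤ → ℤ → ℝ} {q : ℤ → ℤ → Prop} {κ : ℝ}
    (hκ : 0 ≤ κ) {Y' : ℤ → ℤ → Matrix ι ι ℝ} (pY' : ∀ n m, (Y' n m).PosSemidef)
    (h : ∀ r, k + r ≤ N → EP N R S k φ' (k + r) ≤ EP N R S k φ (k + r) + 4 ^ k *
      ∑ m ∈ iv (N - k) S, ∑ n ∈ iv (N - k) R, (if q n m then κ * (Y' n m).trace else 0)) :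
    WW N k (EP N R S k φ') ≤ WW N k (EP N R S k φ) + 4 ^ k * ∑ m ∈ iv (N - k) S,
      ∑ n ∈ iv (N - k) R, (if q n m then 4 * κ * (Y' n m).trace else 0) := by
  refine (WW_of (d := fun _ n m => κ * (Y' n m).trace) h hk).trans ?_
  refine add_le_add_right (mul_le_mul_of_nonneg_left (sum_le_sum fun m _ => sum_le_sum fun n _ =>
    ?_) (by positivity)) _
  split_ifs
  · refine (geo_tr (mul_nonneg hκ (pY' n m).trace_nonneg)).trans (le_of_eq ?_)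
    ring
  · exact le_rfl

/-- **The change of the whole functional in one step.** -/
theorem hx_light {N k : ℕ} (hk : k ≤ N) {R S T c : ℤ}
    {P P' X X' Q Q' Y Y' Q₁ : ℕ → ℤ → ℤ → Matrix ι ι ℝ} {φ φ' ψ ψ' : ℕ → ℤ → ℤ → ℝ}
    {M κ τ : ℝ} (hM : 0 ≤ M) (hκ : 0 ≤ κ) (hτ : 0 < τ)
    (pP : ∀ a n m, (P a n m).PosSemidef) (pP' : ∀ a n m, (P' a n m).PosSemidef)
    (pQ : ∀ a n m, (Q a n m).PosSemidef) (pQ' : ∀ a n m, (Q' a n m).PosSemidef)
    (oX : OutM N k X) (oX' : OutM N k X') (pX : ∀ a n m, (X a n m).PosSemidef)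
    (pX' : ∀ a n m, (X' a n m).PosSemidef)
    (oY : OutM N k Y) (oY' : OutM N k Y') (pY : ∀ a n m, (Y a n m).PosSemidef)
    (pY' : ∀ a n m, (Y' a n m).PosSemidef) (pQ₁ : ∀ a n m, (Q₁ a n m).PosSemidef)
    (cap : ∀ a, k ≤ a → a ≤ N → ∀ n ∈ iv (N - a) R, ∀ m ∈ iv (N - k) S,
      (M • (1 : Matrix ι ι ℝ) - P' a n m).PosSemidef)
    (hph : ∀ a n m, φ' a n m ≤ φ a n m + 2 * (P' a n m * (X' a n m - X a n m)).trace)
    (bQ : ∀ a, k ≤ a → a ≤ N → ∀ n ∈ iv (N - a) T, ∀ m ∈ iv (N - k) S,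
      (κ • (1 : Matrix ι ι ℝ) - Q₁ a n m).PosSemidef)
    (hps : ∀ a n m, ψ' a n m ≤ ψ a n m + (Q₁ a n m * (Y' a n m - Y a n m)).trace)
    {q q' : ℤ → ℤ → Prop}
    (agX : ∀ n ∈ iv (N - k) R, ∀ m ∈ iv (N - k) S, ¬ q n m → X' k n m = X k n m)
    (agP : ∀ n ∈ iv (N - k) R, ∀ m ∈ iv (N - k) S, ¬ q n m → P' k n m = P k n m)
    (agY : ∀ n ∈ iv (N - k) T, ∀ m ∈ iv (N - k) S, ¬ q' n m → Y' k n m = Y k n m)
    (agQ : ∀ n ∈ iv (N - k) T, ∀ m ∈ iv (N - k) S, ¬ q' n m → Q' k n m = Q k n m) :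
    MW N R S T k c (P' k) (Q' k) + 9 * (WW N k (EP N R S k φ') + WW N k (EP N T S k ψ')) ≤
    MW N R S T k c (P k) (Q k) + 9 * (WW N k (EP N R S k φ) + WW N k (EP N T S k ψ)) +
      (xq N R S T k c M τ q (P' k) (X' k) (Q' k) + yq N S T k M κ q' (Q' k) (Y' k)) := by
  have h1 := MW_chK (N := N) (k := k) (R := R) (S := S) (T := T) (c := c) (pP k) (pP' k) (pQ k)
    (pQ' k) hM hτ (cap k le_rfl hk) agP agQ
  have h2 := WW_tr (R := R) (S := S) hk (κ := 2 * M) (by positivity) (pX' k)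
    (fun r hr => EP_chK oX oX' pX pX' pP' hr (cap (k + r) (Nat.le_add_right _ _) hr) hph agX)
  have h3 := WW_tr (R := T) (S := S) hk hκ (pY' k)
    (fun r hr => EG_ch oY oY' pY pY' pQ₁ hr (bQ (k + r) (Nat.le_add_right _ _) hr) hps agY)
  have e1 : xq N R S T k c M τ q (P' k) (X' k) (Q' k) =
      4 ^ k * (∑ m ∈ iv (N - k) S, ∑ n ∈ iv (N - k) R, (if q n m then
          (1 / 2) * (τ⁻¹ * S2 (P' k n m)
            + τ * (if c - m - n ∈ iv (N - k) T then S2 (Q' k (c - m - n) m) else 0)) else 0))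
      + 9 * (4 ^ k * ∑ m ∈ iv (N - k) S,
      ∑ n ∈ iv (N - k) R, (if q n m then 4 * (2 * M) * (X' k n m).trace else 0)) := by
    unfold xq
    rw [mul_left_comm (9 : ℝ), ← mul_add, Finset.mul_sum (s := iv (N - k) S) (a := (9 : ℝ)),
      ← sum_add_distrib]
    congr 1
    refine sum_congr rfl fun m _ => ?_
    rw [Finset.mul_sum (s := iv (N - k) R) (a := (9 : ℝ)), ← sum_add_distrib]
    refine sum_congr rfl fun n _ => ?_
    split_ifs <;> ring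
  have e2 : yq N S T k M κ q' (Q' k) (Y' k) =
      4 ^ k * (∑ m ∈ iv (N - k) S, ∑ n ∈ iv (N - k) T, (if q' n m then
          M * (Q' k n m).trace else 0))
      + 9 * (4 ^ k * ∑ m ∈ iv (N - k) S,
      ∑ n ∈ iv (N - k) T, (if q' n m then 4 * κ * (Y' k n m).trace else 0)) := by
    unfold yq
    rw [mul_left_comm (9 : ℝ), ← mul_add, Finset.mul_sum (s := iv (N - k) S) (a := (9 : ℝ)),
      ← sum_add_distrib]
    congr 1
    refine sum_congr rfl fun m _ => ?_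
    rw [Finset.mul_sum (s := iv (N - k) T) (a := (9 : ℝ)), ← sum_add_distrib]
    refine sum_congr rfl fun n _ => ?_
    split_ifs <;> ring
  rw [e1, e2]
  linarith

end

section total

noncomputable section

open scoped Classical

/-- **The sum of the gains over all scales, killed squares included.** -/
theorem lightTot {N : ℕ} {R S T : ℤ} {c : ℕ → ℤ} (hc : H588.Pl c)
    {ι : ℕ → Type*} [∀ k, Fintype (ι k)] [∀ k, DecidableEq (ι k)]
    {P P' X X' Q Q' Y Y' Q₁ : ∀ k, ℕ → ℤ → ℤ → Matrix (ι k) (ι k) ℝ}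
    {φ φ' ψ ψ' : ℕ → ℕ → ℤ → ℤ → ℝ} {g : ℕ → ℤ → ℤ → ℤ → ℝ} {dE dF : ℕ → ℕ → ℝ}
    {q q' : ℕ → ℤ → ℤ → Prop} {M κ τ : ℝ} (hM : 0 ≤ M) (hκ : 0 ≤ κ) (hτ : 0 < τ)
    (oP : PotM N 0 (P 0) (φ 0)) (oQ : PotM N 0 (Q 0) (ψ 0))
    (oP' : ∀ k, k < N → PotM N k (P' k) (φ' k)) (oQ' : ∀ k, k < N → PotM N k (Q' k) (ψ' k))
    (bP : ∀ k, k ≤ N → ∀ n m, (P k k n m * P k k n m).trace ≤ φ k k n m)
    (bQ : ∀ k, k ≤ N → ∀ n m, (Q k k n m * Q k k n m).trace ≤ ψ k k n m)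
    (pP : ∀ k a n m, (P k a n m).PosSemidef) (pP' : ∀ k a n m, (P' k a n m).PosSemidef)
    (pQ : ∀ k a n m, (Q k a n m).PosSemidef) (pQ' : ∀ k a n m, (Q' k a n m).PosSemidef)
    (oX : ∀ k, k < N → OutM N k (X k)) (oX' : ∀ k, k < N → OutM N k (X' k))
    (pX : ∀ k a n m, (X k a n m).PosSemidef) (pX' : ∀ k a n m, (X' k a n m).PosSemidef)
    (oY : ∀ k, k < N → OutM N k (Y k)) (oY' : ∀ k, k < N → OutM N k (Y' k))
    (pY : ∀ k a n m, (Y k a n m).PosSemidef) (pY' : ∀ k a n m, (Y' k a n m).PosSemidef)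
    (pQ₁ : ∀ k a n m, (Q₁ k a n m).PosSemidef)
    (cap : ∀ k, k < N → ∀ a, k ≤ a → a ≤ N → ∀ n ∈ iv (N - a) R, ∀ m ∈ iv (N - k) S,
      (M • (1 : Matrix (ι k) (ι k) ℝ) - P' k a n m).PosSemidef)
    (hph : ∀ k a n m, φ' k a n m ≤ φ k a n m + 2 * (P' k a n m * (X' k a n m - X k a n m)).trace)
    (cap₁ : ∀ k, k < N → ∀ a, k ≤ a → a ≤ N → ∀ n ∈ iv (N - a) T, ∀ m ∈ iv (N - k) S,
      (κ • (1 : Matrix (ι k) (ι k) ℝ) - Q₁ k a n m).PosSemidef)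
    (hps : ∀ k a n m, ψ' k a n m ≤ ψ k a n m + (Q₁ k a n m * (Y' k a n m - Y k a n m)).trace)
    (agX : ∀ k, k < N → ∀ n ∈ iv (N - k) R, ∀ m ∈ iv (N - k) S, ¬ q k n m →
      X' k k n m = X k k n m)
    (agP : ∀ k, k < N → ∀ n ∈ iv (N - k) R, ∀ m ∈ iv (N - k) S, ¬ q k n m →
      P' k k n m = P k k n m)
    (agY : ∀ k, k < N → ∀ n ∈ iv (N - k) T, ∀ m ∈ iv (N - k) S, ¬ q' k n m →
      Y' k k n m = Y k k n m)
    (agQ : ∀ k, k < N → ∀ n ∈ iv (N - k) T, ∀ m ∈ iv (N - k) S, ¬ q' k n m →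
      Q' k k n m = Q k k n m)
    (mid : ∀ k, k < N → ∀ n n' m,
      (P (k + 1) (k + 1) n m * Q (k + 1) (k + 1) n' m).trace + g k n n' m
      ≤ (1 / 2) * ((avO (P' k) k n (2 * m) * avO (Q' k) k n' (2 * m)).trace
        + (avO (P' k) k n (2 * m + 1) * avO (Q' k) k n' (2 * m + 1)).trace))
    (hE : ∀ k, k < N → ∀ a, k + 1 ≤ a → a ≤ N →
      EP N R S (k + 1) (φ (k + 1)) a ≤ EP N R S k (φ' k) a + dE k a)
    (hF : ∀ k, k < N → ∀ a, k + 1 ≤ a → a ≤ N →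
      EP N T S (k + 1) (ψ (k + 1)) a ≤ EP N T S k (ψ' k) a + dF k a)
    (zP : EP N R S 0 (φ 0) 0 = 0) (zQ : EP N T S 0 (ψ 0) 0 = 0) :
    ∑ k ∈ range N, GW N R S T (k + 1) (c (k + 1)) (g k) ≤
      ∑ k ∈ range N, (xq N R S T k (c k) M τ (q k) (P' k k) (X' k k) (Q' k k)
        + yq N S T k M κ (q' k) (Q' k k) (Y' k k))
      + 9 * ∑ k ∈ range N, (WW N (k + 1) (dE k) + WW N (k + 1) (dF k)) := by
  have h := totalP (Nat.zero_le N) hc (P := P) (P' := P') (Q := Q) (Q' := Q') (φ := φ) (φ' := φ')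
    (ψ := ψ) (ψ' := ψ') (R := R) (S := S) (T := T) (g := g) (dE := dE) (dF := dF)
    (x := fun k => (xq N R S T k (c k) M τ (q k) (P' k k) (X' k k) (Q' k k)
        + yq N S T k M κ (q' k) (Q' k k) (Y' k k))) oP oQ (fun k _ h => oP' k h)
    (fun k _ h => oQ' k h) (fun k _ h => bP k h) (fun k _ h => bQ k h)
    (fun k a n m => psd_tr (pP k a n m)) (fun k a n m => psd_tr (pQ k a n m))
    (fun k a n m => psd_tr (pP' k a n m)) (fun k a n m => psd_tr (pQ' k a n m))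
    (fun k _ h => mid k h) (fun k _ h a h1 h2 => hE k h a h1 h2)
    (fun k _ h a h1 h2 => hF k h a h1 h2)
    (fun k _ h => hx_light h.le hM hκ hτ (pP k) (pP' k) (pQ k) (pQ' k) (oX k h) (oX' k h) (pX k)
      (pX' k) (oY k h) (oY' k h) (pY k) (pY' k) (pQ₁ k) (cap k h) (hph k) (cap₁ k h) (hps k)
      (agX k h) (agP k h) (agY k h) (agQ k h))
  rw [zP, zQ] at h
  rw [add_zero, mul_zero, zero_add] at h
  rwa [← range_eq_Ico] at h

end

end total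

end Vale.Agent.P141.H46
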