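import Vale.Agent.P141.H170.UEh

/-!
# P141, line W: the mixed charge of a label event with a saturated second input

`mxs = 4 ^ k ∑ tr (P X_F P φ(X_H))` in the place of `mxr = 4 ^ k ∑ tr (P X_F P X_H)`: the second
input may be any function (no cap, no cut in levels):
`tr (P X_F P φ(X_H)) ≤ |P X_F P|_HS √(tr P X_H P)`.
-/

namespace Vale.Agent.P141.H46

open Finset Matrix Vale.Agent.P075 Vale.Agent.P141.PL Vale.Agent.P141.PL.H588 Vale.Agent.P141.H736
open Vale.Agent.P141.H170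

noncomputable section

open scoped Classical

section mat

variable {n : Type*} [Fintype n] [DecidableEq n]

/-- trace form of `phi_split`, the second factor stays saturated -/
theorem trace_phi_split_phi {X P Y : Matrix n n ℝ} (hX : X.PosSemidef) (hP : Prj P)
    (hY : Y.PosSemidef) {ε : ℝ} (hε : 0 < ε) :
    (phi X * phi Y).trace ≤ (1 + ε) * (phi ((1 - P) * X * (1 - P)) * phi Y).trace
      + (1 + ε⁻¹) * (P * X * P * phi Y).trace := by
  have h1 := trace_mul_le_left (phi_psd hY) (phi_split hX hP hε)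
  rw [Matrix.add_mul, trace_add, Matrix.smul_mul, Matrix.smul_mul, trace_smul, trace_smul,
    smul_eq_mul, smul_eq_mul] at h1
  exact h1

/-- `|P φ(Y) P|_HS² ≤ tr (P Y P)` -/
theorem hs_prj_phi_sq_le {Y P : Matrix n n ℝ} (hY : Y.PosSemidef) (hP : Prj P) :
    hs (P * phi Y * P) ^ 2 ≤ (P * Y * P).trace := by
  have hφ := phi_psd hY
  have hPφ : (P * phi Y * P).PosSemidef := psd_conj_symm hφ hP.1
  rw [hs_sq_psd hPφ]
  have e1 : (P * phi Y * P * (P * phi Y * P)).trace = (P * phi Y * P * phi Y).trace := by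
    calc (P * phi Y * P * (P * phi Y * P)).trace
        = ((P * phi Y * (P * P) * phi Y) * P).trace := by simp only [Matrix.mul_assoc]
      _ = (P * (P * phi Y * (P * P) * phi Y)).trace := trace_mul_comm _ _
      _ = ((P * P) * phi Y * (P * P) * phi Y).trace := by simp only [Matrix.mul_assoc]
      _ = _ := by rw [hP.2]
  rw [e1]
  -- replace the last factor by the identity
  have h1 : (P * phi Y * P * phi Y).trace ≤ (P * phi Y * P * 1).trace :=
    trace_mul_le_right hPφ (one_sub_phi_psd hY)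
  rw [Matrix.mul_one] at h1
  refine h1.trans ?_
  rw [hP.trace, hP.trace]
  exact trace_mul_le_right hP.psd (H804.phi_le_self hY)

/-- **the saturated mixed term of the removed parts** -/
theorem trace_prj_phi_le {X Y P : Matrix n n ℝ} (hX : X.PosSemidef) (hY : Y.PosSemidef)
    (hP : Prj P) :
    (P * X * P * phi Y).trace ≤ hs (P * X * P) * √(P * Y * P).trace := by
  refine (trace_prj_le (phi Y) hP hX).trans (mul_le_mul_of_nonneg_left ?_ (hs_nonneg _))
  exact Real.le_sqrt_of_sq_le (hs_prj_phi_sq_le hY hP)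

end mat

/-- the energy of the product of the removed parts, the second input saturated -/
def mxs (N : ℕ) (R S T : ℤ) (k : ℕ) (c : ℤ) (P : ℤ → ℤ → Matrix (Ix k) (Ix k) ℝ)
    (F H : ℤ → ℤ → ℝ) : ℝ :=
  (4 : ℝ) ^ k * ∑ m ∈ iv (N - k) S, ∑ n ∈ iv (N - k) R,
    if c - m - n ∈ iv (N - k) T then
      (P n m * Xg k k F n m * P n m * phi (Xg k k H (c - m - n) m)).trace else 0

/-- the charge `4 ^ k ∑ |P X_F P|_HS √(tr P X_H P)` over the events -/
def mxq (N : ℕ) (R S T : ℤ) (k : ℕ) (c : ℤ) (P : ℤ → ℤ → Matrix (Ix k) (Ix k) ℝ)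
    (F H : ℤ → ℤ → ℝ) : ℝ :=
  (4 : ℝ) ^ k * ∑ m ∈ iv (N - k) S, ∑ n ∈ iv (N - k) R,
    if c - m - n ∈ iv (N - k) T ∧ P n m ≠ 0 then
      hs (P n m * Xg k k F n m * P n m) *
        √(P n m * Xg k k H (c - m - n) m * P n m).trace else 0

theorem mxq_nonneg (N : ℕ) (R S T : ℤ) (k : ℕ) (c : ℤ) (P : ℤ → ℤ → Matrix (Ix k) (Ix k) ℝ)
    (F H : ℤ → ℤ → ℝ) : 0 ≤ mxq N R S T k c P F H := by
  unfold mxq
  refine mul_nonneg (by positivity) (sum_nonneg fun m _ => sum_nonneg fun n _ => ?_)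
  split_ifs
  · exact mul_nonneg (hs_nonneg _) (Real.sqrt_nonneg _)
  · exact le_rfl

/-- the saturated mixed term is at most the charge; no condition on `H` -/
theorem mxs_le (N : ℕ) (R S T : ℤ) (k : ℕ) (c : ℤ) {P : ℤ → ℤ → Matrix (Ix k) (Ix k) ℝ}
    (F H : ℤ → ℤ → ℝ) (hP : ∀ n ∈ iv (N - k) R, ∀ m ∈ iv (N - k) S, Prj (P n m)) :
    mxs N R S T k c P F H ≤ mxq N R S T k c P F H := by
  unfold mxs mxq
  refine mul_le_mul_of_nonneg_left ?_ (by positivity)
  refine sum_le_sum fun m hm => sum_le_sum fun n hn => ?_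
  by_cases hc : c - m - n ∈ iv (N - k) T
  · rw [if_pos hc]
    by_cases h0 : P n m = 0
    · rw [if_neg (fun h => h.2 h0), h0]
      simp
    · rw [if_pos ⟨hc, h0⟩]
      exact trace_prj_phi_le (Xg_psd ..) (Xg_psd ..) (hP n hn m hm)
  · rw [if_neg hc, if_neg (fun h => hc h.1)]

/-- **change of the mixed energy**, `H` static, saturated charge -/
theorem Mk_mid_phi (N : ℕ) (R S T : ℤ) (k : ℕ) (c : ℤ) {P : ℤ → ℤ → Matrix (Ix k) (Ix k) ℝ}
    {F F' : ℤ → ℤ → ℝ} (H : ℤ → ℤ → ℝ) (hP : MidP N R S k P F F') {ε : ℝ} (hε : 0 < ε) :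
    Mk N R S T k c F H ≤ Mk N R S T k c F' H
      + (ε * mxe N R S T k c P F' H + (1 + ε⁻¹) * mxs N R S T k c P F H) := by
  have key : ∑ m ∈ iv (N - k) S, ∑ n ∈ iv (N - k) R,
      (if c - m - n ∈ iv (N - k) T then
        (phi (Xg k k F n m) * phi (Xg k k H (c - m - n) m)).trace else 0)
      ≤ ∑ m ∈ iv (N - k) S, ∑ n ∈ iv (N - k) R,
        ((if c - m - n ∈ iv (N - k) T then
          (phi (Xg k k F' n m) * phi (Xg k k H (c - m - n) m)).trace else 0)
        + (ε * (if c - m - n ∈ iv (N - k) T ∧ P n m ≠ 0 then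
          (phi (Xg k k F' n m) * phi (Xg k k H (c - m - n) m)).trace else 0)
        + (1 + ε⁻¹) * (if c - m - n ∈ iv (N - k) T then
          (P n m * Xg k k F n m * P n m * phi (Xg k k H (c - m - n) m)).trace else 0))) := by
    refine sum_le_sum fun m hm => sum_le_sum fun n hn => ?_
    by_cases hc : c - m - n ∈ iv (N - k) T
    · rw [if_pos hc, if_pos hc, if_pos hc]
      by_cases h0 : P n m = 0
      · have e := hP.Xg_eq hn hm
        rw [h0, sub_zero, Matrix.one_mul, Matrix.mul_one] at e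
        rw [if_neg (fun h => h.2 h0), e, h0]
        simp
      · rw [if_pos ⟨hc, h0⟩, hP.Xg_eq hn hm]
        have := trace_phi_split_phi (Xg_psd k k F n m) (hP n hn m hm).1
          (Xg_psd k k H (c - m - n) m) hε
        linarith
    · rw [if_neg hc, if_neg hc, if_neg (fun h => hc h.1), if_neg hc]
      simp
  unfold Mk mxe mxs
  have h := mul_le_mul_of_nonneg_left key (by positivity : (0 : ℝ) ≤ 4 ^ k)
  refine h.trans (le_of_eq ?_)
  simp only [sum_add_distrib, ← mul_sum]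
  ring

/-- `Mk_mid_phi` with the charge `mxq` -/
theorem Mk_mid_q (N : ℕ) (R S T : ℤ) (k : ℕ) (c : ℤ) {P : ℤ → ℤ → Matrix (Ix k) (Ix k) ℝ}
    {F F' : ℤ → ℤ → ℝ} (H : ℤ → ℤ → ℝ) (hP : MidP N R S k P F F') {ε : ℝ} (hε : 0 < ε) :
    Mk N R S T k c F H ≤ Mk N R S T k c F' H
      + (ε * mxe N R S T k c P F' H + (1 + ε⁻¹) * mxq N R S T k c P F H) := by
  have h1 := Mk_mid_phi N R S T k c H hP hε
  have h2 := mxs_le N R S T k c F H (fun n hn m hm => (hP n hn m hm).1)
  have h3 : (0 : ℝ) ≤ 1 + ε⁻¹ := by positivity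
  have := mul_le_mul_of_nonneg_left h2 h3
  linarith

/-- **Change of the functional under projections in the middle variable**, `H` static, energies
charged in HS form, the mixed charge saturated. -/
theorem BF_mid_q {N k : ℕ} (h : k ≤ N) (R S T : ℤ) (c : ℕ → ℤ)
    {P : ℤ → ℤ → Matrix (Ix k) (Ix k) ℝ} {F F' : ℤ → ℤ → ℝ} (H : ℤ → ℤ → ℝ)
    (hP : MidP N R S k P F F') (hA : Agree N R S k (evP P) F F') {ε : ℝ} (hε : 0 < ε) :
    BF N R S T c k (F, H) ≤ BF N R S T c k (F', H)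
      + (28 * ch N R S k 0 (evP P) F F' + 128 * chW N R S k (evP P) F F'
        + 2 * (ε * mxe N R S T k (c k) P F' H + (1 + ε⁻¹) * mxq N R S T k (c k) P F H)) := by
  have a1 := Mk_mid_q N R S T k (c k) H hP hε
  have a2 := en_hs (r := 0) (by omega) R S hA
  have a3 := Wt_hs h R S hA
  rw [Nat.add_zero] at a2
  unfold BF
  simp only
  linarith

/-- **Path form with label events, HS charges, saturated mixed charge.** -/
theorem sum_mnk_mid_q {N : ℕ} (R S T : ℤ) {c : ℕ → ℤ} (hc : Pl c)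
    {P : (k : ℕ) → ℤ → ℤ → Matrix (Ix k) (Ix k) ℝ} {Q Q' : ℕ → ℤ → ℤ → Prop}
    {F G H : ℕ → ℤ → ℤ → ℝ} {κ₃ κ' ε : ℝ}
    (hF : ∀ k < N, MidP N R S k (P k) (F (k + 1)) (G k))
    (hG : ∀ k < N, Agree N R S k (Q k) (G k) (F k)) (hH : Path N T S Q' H)
    (hF0 : F 0 = 0) (hH0 : H 0 = 0) (hε : 0 < ε)
    (h3 : ∀ k < N, CapX N R S k κ₃ (G k)) (hκ' : ∀ k < N, CapX N T S k κ' (H (k + 1))) :
    ∑ k ∈ Icc 1 N, mnk N R S T k (c k) (F k) (H k)
      ≤ ∑ k ∈ range N, ((28 * ch N R S k 0 (evP (P k)) (F (k + 1)) (G k)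
          + 128 * chW N R S k (evP (P k)) (F (k + 1)) (G k)
          + 2 * (ε * mxe N R S T k (c k) (P k) (G k) (H (k + 1))
            + (1 + ε⁻¹) * mxq N R S T k (c k) (P k) (F (k + 1)) (H (k + 1))))
        + (2 * mix N R S T k (c k) (Q k) (Q' k) (G k) (H (k + 1))
          + 540 * (κ₃ * sqQ N R S k (Q k) (G k))
          + 540 * (κ' * sqQ N T S k (Q' k) (H (k + 1))))) := by
  refine sum_mnk_of_change R S T hc hF0 hH0 fun k hk' => ?_
  have a1 := BF_mid_q (k := k) (by omega) R S T c (H (k + 1)) (hF k hk') (hF k hk').agree hε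
  have a2 := BF_change (k := k) (by omega) R S T c (hG k hk') (hH k hk') (h3 k hk') (hκ' k hk')
  linarith

/-! ### scalings: every charge is homogeneous -/

theorem Xg_smul (a b : ℕ) (s : ℝ) (F : ℤ → ℤ → ℝ) (n m : ℤ) :
    Xg a b (fun x y => s * F x y) n m = s ^ 2 • Xg a b F n m := by
  have e : ∀ p q, smp a b (fun x y => s * F x y) p q = s • smp a b F p q := fun p q => by
    ext i j
    rfl
  unfold Xg
  rw [e, transpose_smul, Matrix.smul_mul, Matrix.mul_smul, smul_smul, smul_smul, smul_smul]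
  congr 1
  ring

/-- **the charge is homogeneous: degree `2` in the first input, degree `1` in the second** -/
theorem mxq_scale (N : ℕ) (R S T : ℤ) (k : ℕ) (c : ℤ) (P : ℤ → ℤ → Matrix (Ix k) (Ix k) ℝ)
    (F H : ℤ → ℤ → ℝ) {s u : ℝ} (hu : 0 ≤ u) :
    mxq N R S T k c P (fun x y => s * F x y) (fun x y => u * H x y) =
      s ^ 2 * u * mxq N R S T k c P F H := by
  unfold mxq
  rw [mul_left_comm (s ^ 2 * u)]
  congr 1
  rw [mul_sum]
  refine sum_congr rfl fun m _ => ?_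
  rw [mul_sum]
  refine sum_congr rfl fun n _ => ?_
  split_ifs
  · rw [Xg_smul, Xg_smul, Matrix.mul_smul, Matrix.smul_mul, Matrix.mul_smul, Matrix.smul_mul,
      hs_smul (sq_nonneg s), trace_smul, smul_eq_mul, Real.sqrt_mul (sq_nonneg u),
      Real.sqrt_sq hu]
    ring
  · rw [mul_zero]

end

end Vale.Agent.P141.H46
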