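import Vale.Agent.P141.H588G.ChgW
import Vale.Agent.P141.H103.PotW

/-!
# The changes of a functional with potentials, paid by node caps

`EP_ch`: the change of the potential energy of a moving family when the inputs are killed on some
squares.  The charge of a killed square is `μ⁻¹ φ + μ |X|²` with the potential `φ` and the square
of the unweighted Gram matrix `X`.  `potSum`: the sum over `x₀` and all scales of the gains.
-/

namespace Vale.Agent.P141.H46

open Finset Matrix Vale.Agent.P141.PL Vale.Agent.P141.PL.H103 Vale.Agent.P141.H103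
open Vale.Agent.P141.H588G

noncomputable section

open scoped Classical

section one

variable {ι : Type*} [Fintype ι]

theorem two_tr_le {A B : Matrix ι ι ℝ} (hA : Aᵀ = A) (hB : Bᵀ = B) {μ : ℝ} (hμ : 0 < μ) :
    2 * (A * B).trace ≤ μ⁻¹ * S2 A + μ * S2 B := by
  have h := P075.trace_sq_nonneg (B := A - μ • B)
    (by rw [transpose_sub, transpose_smul, hA, hB])
  have c := trace_mul_comm B A
  simp only [Matrix.sub_mul, Matrix.mul_sub, Matrix.smul_mul, Matrix.mul_smul, trace_sub,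
    trace_smul, smul_eq_mul] at h
  rw [c] at h
  have h2 : 2 * μ * (A * B).trace ≤ S2 A + μ ^ 2 * S2 B := by
    unfold S2
    nlinarith
  have h3 := mul_le_mul_of_nonneg_left h2 (inv_nonneg.2 hμ.le)
  have e1 : μ⁻¹ * (2 * μ * (A * B).trace) = 2 * (A * B).trace := by
    field_simp
  have e2 : μ⁻¹ * (S2 A + μ ^ 2 * S2 B) = μ⁻¹ * S2 A + μ * S2 B := by
    field_simp
  rwa [e1, e2] at h3

/-- the potential `l tr (K⁻¹ X K⁻¹ X)` under a change of `X` -/
theorem ph_sub [DecidableEq ι] {K : Matrix ι ι ℝ} (hK : K.PosDef) {l : ℝ} (hl : 0 ≤ l)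
    {X X' : Matrix ι ι ℝ} (hX : Xᵀ = X) (hX' : X'ᵀ = X') :
    l * (K⁻¹ * X' * K⁻¹ * X').trace ≤ l * (K⁻¹ * X * K⁻¹ * X).trace
      + 2 * ((l • (K⁻¹ * X' * K⁻¹)) * (X' - X)).trace := by
  have hKi : (K⁻¹)ᵀ = K⁻¹ := by
    have := hK.isHermitian.inv.eq
    rwa [conjTranspose_eq_transpose_of_trivial] at this
  obtain ⟨D, hD⟩ : ∃ D, D = X' - X := ⟨_, rfl⟩
  have hDt : Dᵀ = D := by rw [hD, transpose_sub, hX, hX']
  have hp : (K⁻¹).PosSemidef := hK.inv.posSemidef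
  have p1 : (D * K⁻¹ * D).PosSemidef := by
    have := hp.mul_mul_conjTranspose_same D
    rwa [conjTranspose_eq_transpose_of_trivial, hDt] at this
  have h1 := P075.trace_mul_nonneg hp p1
  have e0 : (K⁻¹ * (D * K⁻¹ * D)).trace = (K⁻¹ * D * K⁻¹ * D).trace := by
    simp only [Matrix.mul_assoc]
  rw [e0] at h1
  have c1 : (K⁻¹ * X' * K⁻¹ * X).trace = (K⁻¹ * X * K⁻¹ * X').trace := by
    rw [← trace_transpose]
    simp only [transpose_mul, hKi, hX, hX']
    rw [show X * (K⁻¹ * (X' * K⁻¹)) = (X * K⁻¹) * (X' * K⁻¹) by simp only [Matrix.mul_assoc],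
      trace_mul_comm (X * K⁻¹), trace_mul_comm (K⁻¹ * X * K⁻¹) X']
    simp only [Matrix.mul_assoc]
  have e1 : (K⁻¹ * D * K⁻¹ * D).trace = (K⁻¹ * X' * K⁻¹ * X').trace
      - 2 * (K⁻¹ * X' * K⁻¹ * X).trace + (K⁻¹ * X * K⁻¹ * X).trace := by
    rw [hD]
    simp only [Matrix.mul_sub, Matrix.sub_mul, trace_sub]
    rw [c1]
    ring
  have e2 : ((l • (K⁻¹ * X' * K⁻¹)) * (X' - X)).trace
      = l * ((K⁻¹ * X' * K⁻¹ * X').trace - (K⁻¹ * X' * K⁻¹ * X).trace) := by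
    rw [Matrix.smul_mul, trace_smul, smul_eq_mul, Matrix.mul_sub, trace_sub]
  rw [e1] at h1
  rw [e2]
  nlinarith [mul_nonneg hl h1]

end one

section out

variable {ι : Type*} [Fintype ι]

/-- a potential is at most its outer averages -/
theorem pot_av {N k : ℕ} {P : ℕ → ℤ → ℤ → Matrix ι ι ℝ} {φ : ℕ → ℤ → ℤ → ℝ}
    (h : PotM N k P φ) (sP : ∀ a n m, (P a n m)ᵀ = P a n m) (m : ℤ) (r : ℕ) :
    ∀ k', k ≤ k' → k' + r ≤ N → ∀ n, φ (k' + r) n m ≤ avS (fun n m => φ k' n m) r n m := by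
  induction r with
  | zero =>
    intro k' _ _ n
    unfold avS
    rw [iv_zero, sum_singleton, pow_zero, inv_one, one_mul, Nat.add_zero]
  | succ r ih =>
    intro k' h1 h2 n
    have e1 : k' + (r + 1) = (k' + 1) + r := by ring
    rw [e1]
    refine (ih (k' + 1) (by omega) (by omega) n).trans ?_
    unfold avS
    rw [H588.sum_iv_succ r n (fun n' => φ k' n' m), pow_succ, mul_inv, mul_assoc,
      Finset.mul_sum _ _ ((2 : ℝ)⁻¹)]
    refine mul_le_mul_of_nonneg_left (sum_le_sum fun n' _ => ?_) (by positivity)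
    have h3 := h.1 k' h1 (by omega) n' m
    have h4 := P075.trace_sq_nonneg (B := P k' (2 * n') m - P (k' + 1) n' m)
      (by rw [transpose_sub, sP, sP])
    have h5 := P075.trace_sq_nonneg (B := P k' (2 * n' + 1) m - P (k' + 1) n' m)
      (by rw [transpose_sub, sP, sP])
    linarith

/-- the killed part of an outer mean -/
def kE (X' : ℕ → ℤ → ℤ → Matrix ι ι ℝ) (k r : ℕ) (q : ℤ → ℤ → Prop) (n m : ℤ) : Matrix ι ι ℝ :=
  ((2 : ℝ) ^ r)⁻¹ • ∑ n' ∈ iv r n, (if q n' m then X' k n' m else 0)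

omit [Fintype ι] in
theorem kE_psd {k r : ℕ} {X' : ℕ → ℤ → ℤ → Matrix ι ι ℝ}
    (pX' : ∀ a n m, (X' a n m).PosSemidef) (q : ℤ → ℤ → Prop) (n m : ℤ) :
    (kE X' k r q n m).PosSemidef := by
  refine PosSemidef.smul (posSemidef_sum _ fun n' _ => ?_) (by positivity)
  split_ifs
  · exact pX' ..
  · exact PosSemidef.zero

omit [Fintype ι] in
theorem kE_dom {N k r : ℕ} {X X' : ℕ → ℤ → ℤ → Matrix ι ι ℝ} (oX : OutM N k X)
    (oX' : OutM N k X') (pX : ∀ a n m, (X a n m).PosSemidef) (hr : k + r ≤ N) {n m : ℤ}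
    {q : ℤ → ℤ → Prop} (ag : ∀ n' ∈ iv r n, ¬ q n' m → X' k n' m = X k n' m) :
    (kE X' k r q n m - (X' (k + r) n m - X (k + r) n m)).PosSemidef := by
  have e : kE X' k r q n m - (X' (k + r) n m - X (k + r) n m) = ((2 : ℝ) ^ r)⁻¹ •
      ∑ n' ∈ iv r n, (if q n' m then X k n' m else 0) := by
    rw [kE, out_mean oX m r k le_rfl hr n, out_mean oX' m r k le_rfl hr n, ← smul_sub,
      ← smul_sub, ← sum_sub_distrib, ← sum_sub_distrib]
    congr 1
    refine sum_congr rfl fun n' hn' => ?_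
    split_ifs with hq
    · abel
    · rw [ag n' hn' hq]
      simp
  rw [e]
  refine PosSemidef.smul (posSemidef_sum _ fun n' _ => ?_) (by positivity)
  split_ifs
  · exact pX ..
  · exact PosSemidef.zero

/-- the trace against the killed part -/
theorem tr_kE (A : Matrix ι ι ℝ) (X' : ℕ → ℤ → ℤ → Matrix ι ι ℝ) (k r : ℕ) (q : ℤ → ℤ → Prop)
    (n m : ℤ) : (A * kE X' k r q n m).trace = ((2 : ℝ) ^ r)⁻¹ * ∑ n' ∈ iv r n,
      (if q n' m then (A * X' k n' m).trace else 0) := by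
  rw [kE, Matrix.mul_smul, trace_smul, smul_eq_mul, Finset.mul_sum, trace_sum]
  congr 1
  refine sum_congr rfl fun n' _ => ?_
  split_ifs
  · rfl
  · rw [Matrix.mul_zero, trace_zero]

/-- the change of the potential of a rectangle -/
theorem ph_pt {N k r : ℕ} {P' X X' : ℕ → ℤ → ℤ → Matrix ι ι ℝ} {φ φ' : ℕ → ℤ → ℤ → ℝ}
    (oX : OutM N k X) (oX' : OutM N k X') (pX : ∀ a n m, (X a n m).PosSemidef)
    (pX' : ∀ a n m, (X' a n m).PosSemidef) (pP' : ∀ a n m, (P' a n m).PosSemidef)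
    (pot : PotM N k P' φ') (bP : ∀ a, k ≤ a → a ≤ N → ∀ n m, S2 (P' a n m) ≤ φ' a n m)
    (hph : ∀ a n m, φ' a n m ≤ φ a n m + 2 * (P' a n m * (X' a n m - X a n m)).trace)
    (hr : k + r ≤ N) {n m : ℤ} {q : ℤ → ℤ → Prop}
    (ag : ∀ n' ∈ iv r n, ¬ q n' m → X' k n' m = X k n' m) {μ : ℝ} (hμ : 0 < μ) :
    φ' (k + r) n m ≤ φ (k + r) n m + ((2 : ℝ) ^ r)⁻¹ * ∑ n' ∈ iv r n,
      (if q n' m then μ⁻¹ * avS (fun n m => φ' k n m) r n m + μ * S2 (X' k n' m) else 0) := by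
  have h1 := hph (k + r) n m
  have h2 := P075.trace_mul_nonneg (pP' (k + r) n m) (kE_dom oX oX' pX hr ag)
  rw [Matrix.mul_sub, trace_sub, tr_kE] at h2
  have h3 : 2 * (((2 : ℝ) ^ r)⁻¹ * ∑ n' ∈ iv r n,
      (if q n' m then (P' (k + r) n m * X' k n' m).trace else 0)) ≤ ((2 : ℝ) ^ r)⁻¹ *
      ∑ n' ∈ iv r n,
      (if q n' m then μ⁻¹ * avS (fun n m => φ' k n m) r n m + μ * S2 (X' k n' m) else 0) := by
    rw [mul_left_comm, Finset.mul_sum]
    refine mul_le_mul_of_nonneg_left (sum_le_sum fun n' _ => ?_) (by positivity)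
    split_ifs with hq
    · have h4 := two_tr_le (psd_tr (pP' (k + r) n m)) (psd_tr (pX' k n' m)) hμ
      have h5 := bP (k + r) (Nat.le_add_right _ _) hr n m
      have h6 := pot_av pot (fun a n m => psd_tr (pP' a n m)) m r k le_rfl hr n
      have h7 := mul_le_mul_of_nonneg_left (h5.trans h6) (inv_nonneg.2 hμ.le)
      linarith
    · rw [mul_zero]
  linarith

/-- sum of pointwise changes over the rectangles -/
theorem EP_of_pt {N k r : ℕ} {R S : ℤ} {φ φ' : ℕ → ℤ → ℤ → ℝ} (hr : k + r ≤ N)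
    {d : ℤ → ℤ → ℤ → ℝ}
    (h : ∀ m ∈ iv (N - k) S, ∀ n ∈ iv (N - (k + r)) R, φ' (k + r) n m ≤ φ (k + r) n m
      + ((2 : ℝ) ^ r)⁻¹ * ∑ n' ∈ iv r n, d n n' m) :
    EP N R S k φ' (k + r) ≤ EP N R S k φ (k + r) + 4 ^ k * ∑ m ∈ iv (N - k) S,
      ∑ n ∈ iv (N - k) R, d (ix r n) n m := by
  have e0 : N - (k + r) + r = N - k := by omega
  have h1 : ∀ m ∈ iv (N - k) S, ∑ n ∈ iv (N - (k + r)) R, φ' (k + r) n m ≤
      ∑ n ∈ iv (N - (k + r)) R, φ (k + r) n m + ((2 : ℝ) ^ r)⁻¹ *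
      ∑ n ∈ iv (N - k) R, d (ix r n) n m := by
    intro m hm
    rw [← e0, ← sum_iv_iv r (N - (k + r)) R, Finset.mul_sum, ← sum_add_distrib]
    refine sum_le_sum fun n hn => ?_
    refine (h m hm n hn).trans (le_of_eq ?_)
    congr 2
    refine sum_congr rfl fun n' hn' => ?_
    rw [mem_iv.1 hn']
  have h2 : ((2 : ℝ) ^ (k + r) * 2 ^ k) * ((2 : ℝ) ^ r)⁻¹ = 4 ^ k := by
    rw [show (4 : ℝ) = 2 * 2 by norm_num, mul_pow, pow_add]
    field_simp
  have h3 := mul_le_mul_of_nonneg_left (sum_le_sum h1)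
    (show (0 : ℝ) ≤ 2 ^ (k + r) * 2 ^ k by positivity)
  rw [sum_add_distrib, mul_add, ← Finset.mul_sum, ← mul_assoc _ ((2 : ℝ) ^ r)⁻¹, h2] at h3
  exact h3

/-- **The change of the potential energy** of outer scale `k + r`. -/
theorem EP_ch {N k r : ℕ} {R S : ℤ} {P' X X' : ℕ → ℤ → ℤ → Matrix ι ι ℝ}
    {φ φ' : ℕ → ℤ → ℤ → ℝ}
    (oX : OutM N k X) (oX' : OutM N k X') (pX : ∀ a n m, (X a n m).PosSemidef)
    (pX' : ∀ a n m, (X' a n m).PosSemidef) (pP' : ∀ a n m, (P' a n m).PosSemidef)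
    (pot : PotM N k P' φ') (bP : ∀ a, k ≤ a → a ≤ N → ∀ n m, S2 (P' a n m) ≤ φ' a n m)
    (hph : ∀ a n m, φ' a n m ≤ φ a n m + 2 * (P' a n m * (X' a n m - X a n m)).trace)
    (hr : k + r ≤ N) {q : ℤ → ℤ → Prop}
    (ag : ∀ n ∈ iv (N - k) R, ∀ m ∈ iv (N - k) S, ¬ q n m → X' k n m = X k n m)
    {μ : ℝ} (hμ : 0 < μ) :
    EP N R S k φ' (k + r) ≤ EP N R S k φ (k + r) + 4 ^ k * ∑ m ∈ iv (N - k) S,
      ∑ n ∈ iv (N - k) R, (if q n m then
        μ⁻¹ * avS (fun n m => φ' k n m) r (ix r n) m + μ * S2 (X' k n m) else 0) := by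
  have e0 : N - (k + r) + r = N - k := by omega
  exact EP_of_pt hr (d := fun i n m => if q n m then
    μ⁻¹ * avS (fun n m => φ' k n m) r i m + μ * S2 (X' k n m) else 0)
    fun m hm n hn => ph_pt oX oX' pX pX' pP' pot bP hph hr
      (fun n' hn' hq => ag n' (by rw [← e0]; exact iv_sub hn hn') m hm hq) hμ

/-- **The change of an energy with a bounded gradient**: charge `κ tr` of the killed squares. -/
theorem EG_ch [DecidableEq ι] {N k r : ℕ} {R S : ℤ} {Q₁ Y Y' : ℕ → ℤ → ℤ → Matrix ι ι ℝ}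
    {ψ ψ' : ℕ → ℤ → ℤ → ℝ}
    (oY : OutM N k Y) (oY' : OutM N k Y') (pY : ∀ a n m, (Y a n m).PosSemidef)
    (pY' : ∀ a n m, (Y' a n m).PosSemidef) (pQ : ∀ a n m, (Q₁ a n m).PosSemidef) {κ : ℝ}
    (hr : k + r ≤ N)
    (bQ : ∀ n ∈ iv (N - (k + r)) R, ∀ m ∈ iv (N - k) S,
      (κ • (1 : Matrix ι ι ℝ) - Q₁ (k + r) n m).PosSemidef)
    (hps : ∀ a n m, ψ' a n m ≤ ψ a n m + (Q₁ a n m * (Y' a n m - Y a n m)).trace)
    {q : ℤ → ℤ → Prop}
    (ag : ∀ n ∈ iv (N - k) R, ∀ m ∈ iv (N - k) S, ¬ q n m → Y' k n m = Y k n m) :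
    EP N R S k ψ' (k + r) ≤ EP N R S k ψ (k + r) + 4 ^ k * ∑ m ∈ iv (N - k) S,
      ∑ n ∈ iv (N - k) R, (if q n m then κ * (Y' k n m).trace else 0) := by
  have e0 : N - (k + r) + r = N - k := by omega
  refine EP_of_pt hr (d := fun _ n m => if q n m then κ * (Y' k n m).trace else 0)
    fun m hm n hn => ?_
  have ag' : ∀ n' ∈ iv r n, ¬ q n' m → Y' k n' m = Y k n' m := fun n' hn' hq =>
    ag n' (by rw [← e0]; exact iv_sub hn hn') m hm hq
  have h1 := hps (k + r) n m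
  have h2 := P075.trace_mul_nonneg (pQ (k + r) n m) (kE_dom oY oY' pY hr ag')
  have h3 := P075.trace_mul_nonneg (bQ n hn m hm) (kE_psd (k := k) (r := r) pY' q n m)
  rw [Matrix.mul_sub, trace_sub] at h2
  rw [Matrix.sub_mul, Matrix.smul_mul, Matrix.one_mul, trace_sub, trace_smul, smul_eq_mul] at h3
  have h4 : κ * (kE Y' k r q n m).trace = ((2 : ℝ) ^ r)⁻¹ * ∑ n' ∈ iv r n,
      (if q n' m then κ * (Y' k n' m).trace else 0) := by
    have h5 := tr_kE (1 : Matrix ι ι ℝ) Y' k r q n m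
    rw [Matrix.one_mul] at h5
    rw [h5, mul_left_comm, Finset.mul_sum]
    congr 1
    refine sum_congr rfl fun n' _ => ?_
    split_ifs
    · rw [Matrix.one_mul]
    · rw [mul_zero]
  rw [h4] at h3
  linarith

/-- **The change of the potential under a cap `M` of the moving family at all rectangles**:
charge `2 M tr` of the killed squares. -/
theorem EP_chK [DecidableEq ι] {N k r : ℕ} {R S : ℤ} {P' X X' : ℕ → ℤ → ℤ → Matrix ι ι ℝ}
    {φ φ' : ℕ → ℤ → ℤ → ℝ}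
    (oX : OutM N k X) (oX' : OutM N k X') (pX : ∀ a n m, (X a n m).PosSemidef)
    (pX' : ∀ a n m, (X' a n m).PosSemidef) (pP' : ∀ a n m, (P' a n m).PosSemidef) {M : ℝ}
    (hr : k + r ≤ N)
    (cap : ∀ n ∈ iv (N - (k + r)) R, ∀ m ∈ iv (N - k) S,
      (M • (1 : Matrix ι ι ℝ) - P' (k + r) n m).PosSemidef)
    (hph : ∀ a n m, φ' a n m ≤ φ a n m + 2 * (P' a n m * (X' a n m - X a n m)).trace)
    {q : ℤ → ℤ → Prop}
    (ag : ∀ n ∈ iv (N - k) R, ∀ m ∈ iv (N - k) S, ¬ q n m → X' k n m = X k n m) :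
    EP N R S k φ' (k + r) ≤ EP N R S k φ (k + r) + 4 ^ k * ∑ m ∈ iv (N - k) S,
      ∑ n ∈ iv (N - k) R, (if q n m then 2 * M * (X' k n m).trace else 0) :=
  EG_ch (Q₁ := fun a n m => (2 : ℝ) • P' a n m) (κ := 2 * M) oX oX' pX pX'
    (fun a n m => (pP' a n m).smul (by norm_num)) hr
    (fun n hn m hm => by
      have := (cap n hn m hm).smul (a := (2 : ℝ)) (by norm_num)
      rwa [smul_sub, smul_smul] at this)
    (fun a n m => by
      rw [Matrix.smul_mul, trace_smul, smul_eq_mul]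
      exact hph a n m) ag

/-- **The change of the plane functional**: killed squares of the first family by the two own
energies, killed squares of the second one by the cap of the first family. -/
theorem MW_chK [DecidableEq ι] {N k : ℕ} {R S T c : ℤ} {p p' u u' : ℤ → ℤ → Matrix ι ι ℝ}
    (pP : ∀ n m, (p n m).PosSemidef) (pP' : ∀ n m, (p' n m).PosSemidef)
    (pQ : ∀ n m, (u n m).PosSemidef) (pQ' : ∀ n m, (u' n m).PosSemidef) {M τ : ℝ} (hM : 0 ≤ M)
    (hτ : 0 < τ)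
    (cap : ∀ n ∈ iv (N - k) R, ∀ m ∈ iv (N - k) S, (M • (1 : Matrix ι ι ℝ) - p' n m).PosSemidef)
    {q q' : ℤ → ℤ → Prop}
    (ag : ∀ n ∈ iv (N - k) R, ∀ m ∈ iv (N - k) S, ¬ q n m → p' n m = p n m)
    (ag' : ∀ n ∈ iv (N - k) T, ∀ m ∈ iv (N - k) S, ¬ q' n m → u' n m = u n m) :
    MW N R S T k c p' u' ≤ MW N R S T k c p u
      + 4 ^ k * (∑ m ∈ iv (N - k) S, ∑ n ∈ iv (N - k) R, (if q n m then
          (1 / 2) * (τ⁻¹ * S2 (p' n m)
            + τ * (if c - m - n ∈ iv (N - k) T then S2 (u' (c - m - n) m) else 0)) else 0))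
      + 4 ^ k * (∑ m ∈ iv (N - k) S, ∑ n ∈ iv (N - k) T, (if q' n m then
          M * (u' n m).trace else 0)) := by
  unfold MW
  rw [← mul_add, ← mul_add]
  refine mul_le_mul_of_nonneg_left ?_ (by positivity)
  rw [← sum_add_distrib, ← sum_add_distrib]
  refine sum_le_sum fun m hm => ?_
  set g : ℤ → ℝ := fun n => (if q' n m then M * (u' n m).trace else 0) with hg
  have g0 : ∀ n, 0 ≤ g n := by
    intro n
    simp only [hg]
    split_ifs
    · exact mul_nonneg hM (pQ' n m).trace_nonneg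
    · exact le_rfl
  have h := H588.sum_refl_le (N - k) R T (c - m) g g0
  refine le_trans ?_ (add_le_add_right h _)
  rw [← sum_add_distrib, ← sum_add_distrib]
  refine sum_le_sum fun n hn => ?_
  have s1 := S2_nonneg (psd_tr (pP' n m))
  have s1' : 0 ≤ τ⁻¹ * S2 (p' n m) := mul_nonneg (inv_nonneg.2 hτ.le) s1
  by_cases hc : c - m - n ∈ iv (N - k) T
  · simp only [if_pos hc]
    have s2 := S2_nonneg (psd_tr (pQ' (c - m - n) m))
    have h2 := two_tr_le (psd_tr (pP' n m)) (psd_tr (pQ' (c - m - n) m)) hτ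
    have h3 := P075.trace_mul_nonneg (pP n m) (pQ (c - m - n) m)
    by_cases h1 : q n m
    · rw [if_pos h1]
      have := g0 (c - m - n)
      linarith
    · rw [if_neg h1]
      by_cases h1' : q' (c - m - n) m
      · simp only [hg]
        rw [if_pos h1']
        have h4 := P075.trace_mul_nonneg (pQ' (c - m - n) m) (cap n hn m hm)
        rw [Matrix.mul_sub, Matrix.mul_smul, Matrix.mul_one, trace_sub, trace_smul, smul_eq_mul,
          trace_mul_comm (u' (c - m - n) m) (p' n m)] at h4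
        linarith
      · rw [ag n hn m hm h1, ag' _ hc m hm h1']
        have := g0 (c - m - n)
        linarith
  · rw [if_neg hc, if_neg hc, if_neg hc]
    split_ifs
    · linarith
    · simp

/-- weighted sum over the outer scales -/
theorem WW_of {N k : ℕ} {R S : ℤ} {φ φ' : ℕ → ℤ → ℤ → ℝ} {q : ℤ → ℤ → Prop}
    {d : ℕ → ℤ → ℤ → ℝ}
    (h : ∀ r, k + r ≤ N → EP N R S k φ' (k + r) ≤ EP N R S k φ (k + r) + 4 ^ k *
      ∑ m ∈ iv (N - k) S, ∑ n ∈ iv (N - k) R, (if q n m then d r n m else 0)) (hk : k ≤ N) :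
    WW N k (EP N R S k φ') ≤ WW N k (EP N R S k φ) + 4 ^ k * ∑ m ∈ iv (N - k) S,
      ∑ n ∈ iv (N - k) R, (if q n m then ∑ r ∈ range (N - k + 1), (3 / 4) ^ r * d r n m
        else 0) := by
  unfold WW
  have e : (4 : ℝ) ^ k * ∑ m ∈ iv (N - k) S,
      ∑ n ∈ iv (N - k) R, (if q n m then ∑ r ∈ range (N - k + 1), (3 / 4 : ℝ) ^ r * d r n m else 0)
      = ∑ r ∈ range (N - k + 1), (3 / 4 : ℝ) ^ r * (4 ^ k * ∑ m ∈ iv (N - k) S,
      ∑ n ∈ iv (N - k) R, (if q n m then d r n m else 0)) := by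
    simp only [Finset.mul_sum]
    rw [sum_comm' (s := range (N - k + 1)) (t := fun _ => iv (N - k) S) (t' := iv (N - k) S)
      (s' := fun _ => range (N - k + 1)) (by simp)]
    refine sum_congr rfl fun m _ => ?_
    rw [sum_comm' (s := range (N - k + 1)) (t := fun _ => iv (N - k) R) (t' := iv (N - k) R)
      (s' := fun _ => range (N - k + 1)) (by simp)]
    refine sum_congr rfl fun n _ => ?_
    split_ifs
    · rw [Finset.mul_sum]
      refine sum_congr rfl fun r _ => ?_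
      ring
    · simp
  rw [e, ← sum_add_distrib]
  refine sum_le_sum fun r hr => ?_
  have := mem_range.1 hr
  rw [← mul_add]
  exact mul_le_mul_of_nonneg_left (h r (by omega)) (by positivity)

end out

end

end Vale.Agent.P141.H46
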